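import Mathlib

/-!
# Contractions, the cubic energy of a real matrix, and its variational lower bounds
-/

open Matrix
open scoped BigOperators

namespace Vale.Agent.P075

variable {l m n p q : Type*}

/-- `|M x| ≤ k |x|` in squared form. -/
def Contr [Fintype m] [Fintype n] (k : ℝ) (M : Matrix m n ℝ) : Prop :=
  0 ≤ k ∧ ∀ x : n → ℝ, (M *ᵥ x) ⬝ᵥ (M *ᵥ x) ≤ k ^ 2 * (x ⬝ᵥ x)

/-- Squared Frobenius norm. -/
def fro [Fintype m] [Fintype n] (M : Matrix m n ℝ) : ℝ := ∑ i, ∑ j, (M i j) ^ 2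

theorem dot_self_nonneg [Fintype m] (x : m → ℝ) : 0 ≤ x ⬝ᵥ x :=
  Finset.sum_nonneg fun i _ => mul_self_nonneg (x i)

theorem dot_mulVec_right [Fintype m] [Fintype n] (M : Matrix m n ℝ) (x : m → ℝ) (y : n → ℝ) :
    x ⬝ᵥ (M *ᵥ y) = (Mᵀ *ᵥ x) ⬝ᵥ y := by
  rw [Matrix.dotProduct_mulVec, Matrix.mulVec_transpose]

theorem dot_mulVec_self [Fintype m] [Fintype n] (M : Matrix m n ℝ) (x : n → ℝ) :
    (M *ᵥ x) ⬝ᵥ (M *ᵥ x) = x ⬝ᵥ ((Mᵀ * M) *ᵥ x) := by
  rw [← Matrix.mulVec_mulVec, dot_mulVec_right Mᵀ, transpose_transpose]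

theorem Contr.mul [Fintype l] [Fintype m] [Fintype n] {a b : ℝ} {M : Matrix l m ℝ}
    {N : Matrix m n ℝ} (hM : Contr a M) (hN : Contr b N) : Contr (a * b) (M * N) := by
  refine ⟨mul_nonneg hM.1 hN.1, fun x => ?_⟩
  rw [← Matrix.mulVec_mulVec]
  refine (hM.2 _).trans ?_
  calc a ^ 2 * ((N *ᵥ x) ⬝ᵥ (N *ᵥ x)) ≤ a ^ 2 * (b ^ 2 * (x ⬝ᵥ x)) :=
        mul_le_mul_of_nonneg_left (hN.2 x) (sq_nonneg a)
    _ = (a * b) ^ 2 * (x ⬝ᵥ x) := by ring

theorem Contr.transpose [Fintype m] [Fintype n] {k : ℝ} {M : Matrix m n ℝ} (h : Contr k M) :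
    Contr k Mᵀ := by
  refine ⟨h.1, fun y => ?_⟩
  have e : y ⬝ᵥ (M *ᵥ (Mᵀ *ᵥ y)) = (Mᵀ *ᵥ y) ⬝ᵥ (Mᵀ *ᵥ y) := dot_mulVec_right M y _
  have h1 := h.2 (Mᵀ *ᵥ y)
  generalize hz : Mᵀ *ᵥ y = z at e h1 ⊢
  generalize hu : M *ᵥ z = u at e h1
  have hsum : 0 ≤ ∑ i, (k ^ 2 * y i - u i) ^ 2 := Finset.sum_nonneg fun i _ => sq_nonneg _
  have hexp : ∑ i, (k ^ 2 * y i - u i) ^ 2
      = k ^ 4 * (y ⬝ᵥ y) - 2 * k ^ 2 * (y ⬝ᵥ u) + u ⬝ᵥ u := by
    simp only [dotProduct, Finset.mul_sum, ← Finset.sum_sub_distrib, ← Finset.sum_add_distrib]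
    exact Finset.sum_congr rfl fun i _ => by ring
  rw [hexp, e] at hsum
  rcases eq_or_lt_of_le h.1 with hk | hk
  · subst hk
    have hu0 : u ⬝ᵥ u = 0 := le_antisymm (by simpa using h1) (dot_self_nonneg u)
    have hu1 : u = 0 := dotProduct_self_eq_zero.1 hu0
    rw [hu1, dotProduct_zero] at e
    rw [← e]; simp
  · have h3 : k ^ 2 * (z ⬝ᵥ z) ≤ k ^ 2 * (k ^ 2 * (y ⬝ᵥ y)) := by nlinarith
    exact le_of_mul_le_mul_left h3 (by positivity)

theorem Contr.col_sq [Fintype m] [Fintype n] {k : ℝ} {M : Matrix m n ℝ} (h : Contr k M) (j : n) :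
    ∑ i, (M i j) ^ 2 ≤ k ^ 2 := by
  classical
  have h1 := h.2 (Pi.single j 1)
  simpa [dotProduct, mulVec_single_one, Matrix.col, sq, Pi.single_apply] using h1

theorem Contr.row_sq [Fintype m] [Fintype n] {k : ℝ} {M : Matrix m n ℝ} (h : Contr k M) (i : m) :
    ∑ j, (M i j) ^ 2 ≤ k ^ 2 := by
  simpa using h.transpose.col_sq i

theorem contr_of_gram [Fintype m] [Fintype n] [DecidableEq n] {M : Matrix m n ℝ} {d : n → ℝ}
    (h : Mᵀ * M = diagonal d) (hd : ∀ i, d i ≤ 1) : Contr 1 M := by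
  refine ⟨zero_le_one, fun x => ?_⟩
  rw [dot_mulVec_self, h, one_pow, one_mul]
  refine Finset.sum_le_sum fun i _ => ?_
  rw [mulVec_diagonal]
  nlinarith [mul_self_nonneg (x i), hd i]

theorem contr_of_orth [Fintype m] [Fintype n] [DecidableEq n] {M : Matrix m n ℝ}
    (h : Mᵀ * M = 1) : Contr 1 M :=
  contr_of_gram (d := fun _ => 1) (by rw [h]; exact diagonal_one.symm) fun _ => le_rfl

theorem fro_nonneg [Fintype m] [Fintype n] (M : Matrix m n ℝ) : 0 ≤ fro M :=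
  Finset.sum_nonneg fun _ _ => Finset.sum_nonneg fun _ _ => sq_nonneg _

theorem fro_transpose [Fintype m] [Fintype n] (M : Matrix m n ℝ) : fro Mᵀ = fro M :=
  Finset.sum_comm

theorem fro_mul_left [Fintype l] [Fintype m] [Fintype n] {k : ℝ} {K : Matrix l m ℝ}
    (hK : Contr k K) (G : Matrix m n ℝ) : fro (K * G) ≤ k ^ 2 * fro G := by
  rw [fro, fro, Finset.sum_comm, Finset.sum_comm (s := Finset.univ (α := m)), Finset.mul_sum]
  refine Finset.sum_le_sum fun j _ => ?_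
  have h := hK.2 (fun i => G i j)
  simpa [dotProduct, Matrix.mulVec, Matrix.mul_apply, sq] using h

theorem fro_mul_right [Fintype l] [Fintype m] [Fintype n] {k : ℝ} (G : Matrix l m ℝ)
    {K : Matrix m n ℝ} (hK : Contr k K) : fro (G * K) ≤ k ^ 2 * fro G := by
  rw [← fro_transpose, transpose_mul]
  exact (fro_mul_left hK.transpose _).trans_eq (by rw [fro_transpose])

theorem trace_gram [Fintype m] [Fintype n] (M : Matrix m n ℝ) :
    trace (Mᵀ * M) = fro M := by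
  rw [fro, Finset.sum_comm]
  simp [trace, Matrix.mul_apply, sq]

theorem abs_trace_mul_le [Fintype m] [Fintype n] (X : Matrix m n ℝ) (Y : Matrix n m ℝ) {c : ℝ}
    (hc : 0 < c) : |trace (X * Y)| ≤ (fro X / c + c * fro Y) / 2 := by
  rw [← fro_transpose Y]
  simp only [trace, Matrix.diag_apply, Matrix.mul_apply, fro, Matrix.transpose_apply,
    Finset.mul_sum, Finset.sum_div, ← Finset.sum_add_distrib]
  refine (Finset.abs_sum_le_sum_abs _ _).trans (Finset.sum_le_sum fun i _ => ?_)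
  refine (Finset.abs_sum_le_sum_abs _ _).trans (Finset.sum_le_sum fun j _ => ?_)
  have key : X i j ^ 2 / c + c * Y j i ^ 2 - 2 * |X i j * Y j i|
      = (|X i j| - c * |Y j i|) ^ 2 / c := by
    rw [abs_mul, ← sq_abs (X i j), ← sq_abs (Y j i)]
    field_simp
    ring
  have : 0 ≤ (|X i j| - c * |Y j i|) ^ 2 / c := by positivity
  linarith

theorem young_sq_mul {a b : ℝ} (ha : 0 ≤ a) (hb : 0 ≤ b) :
    a ^ 2 * b ≤ 2 / 3 * a ^ 3 + 1 / 3 * b ^ 3 := by
  nlinarith [mul_nonneg (sq_nonneg (a - b)) (by linarith : 0 ≤ 2 * a + b)]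

theorem young_double [Fintype m] [Fintype n] {c : Matrix m n ℝ}
    (hr : ∀ i, ∑ j, (c i j) ^ 2 ≤ 1) (hc : ∀ j, ∑ i, (c i j) ^ 2 ≤ 1)
    {σ : m → ℝ} {w : n → ℝ} (hσ : ∀ i, 0 ≤ σ i) (hw : ∀ j, 0 ≤ w j) :
    3 / 2 * ∑ j, w j * ∑ i, (σ i) ^ 2 * (c i j) ^ 2 - 1 / 2 * ∑ j, (w j) ^ 3
      ≤ ∑ i, (σ i) ^ 3 := by
  have h1 : ∑ j, w j * ∑ i, (σ i) ^ 2 * (c i j) ^ 2
      ≤ ∑ j, ∑ i, (2 / 3 * ((σ i) ^ 3 * (c i j) ^ 2) + 1 / 3 * ((w j) ^ 3 * (c i j) ^ 2)) := by
    refine Finset.sum_le_sum fun j _ => ?_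
    rw [Finset.mul_sum]
    refine Finset.sum_le_sum fun i _ => ?_
    have := mul_le_mul_of_nonneg_right (young_sq_mul (hσ i) (hw j)) (sq_nonneg (c i j))
    nlinarith
  simp only [Finset.sum_add_distrib, ← Finset.mul_sum] at h1
  rw [Finset.sum_comm] at h1
  simp only [← Finset.mul_sum] at h1
  have h2 : ∑ i, (σ i) ^ 3 * ∑ j, (c i j) ^ 2 ≤ ∑ i, (σ i) ^ 3 :=
    Finset.sum_le_sum fun i _ => mul_le_of_le_one_right (pow_nonneg (hσ i) 3) (hr i)
  have h3 : ∑ j, (w j) ^ 3 * ∑ i, (c i j) ^ 2 ≤ ∑ j, (w j) ^ 3 :=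
    Finset.sum_le_sum fun j _ => mul_le_of_le_one_right (pow_nonneg (hw j) 3) (hc j)
  linarith

theorem exists_orth_diag [Fintype n] [DecidableEq n] (M : Matrix n n ℝ) (hM : Mᵀ = M) :
    ∃ (R : Matrix n n ℝ) (w : n → ℝ), Rᵀ * R = 1 ∧ R * Rᵀ = 1 ∧ Rᵀ * M * R = diagonal w := by
  have h : M.IsHermitian := by
    rw [Matrix.IsHermitian, conjTranspose_eq_transpose_of_trivial, hM]
  refine ⟨(h.eigenvectorUnitary : Matrix n n ℝ), h.eigenvalues, ?_, ?_, ?_⟩
  · have := Unitary.coe_star_mul_self h.eigenvectorUnitary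
    rwa [star_eq_conjTranspose, conjTranspose_eq_transpose_of_trivial] at this
  · have := Unitary.coe_star_mul_self h.eigenvectorUnitary
    rw [star_eq_conjTranspose, conjTranspose_eq_transpose_of_trivial] at this
    exact mul_eq_one_comm.1 this
  · have := h.conjStarAlgAut_star_eigenvectorUnitary
    rw [Unitary.conjStarAlgAut_star_apply, star_eq_conjTranspose,
      conjTranspose_eq_transpose_of_trivial] at this
    simpa using this

theorem gram_isHermitian [Fintype m] (T : Matrix m n ℝ) : (Tᵀ * T).IsHermitian := by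
  rw [Matrix.IsHermitian, conjTranspose_eq_transpose_of_trivial, transpose_mul,
    transpose_transpose]

/-- Sum of the cubes of the singular values. -/
noncomputable def energy [Fintype m] [Fintype n] [DecidableEq n] (T : Matrix m n ℝ) : ℝ :=
  ∑ i, (Real.sqrt ((gram_isHermitian T).eigenvalues i)) ^ 3

theorem energy_nonneg [Fintype m] [Fintype n] [DecidableEq n] (T : Matrix m n ℝ) :
    0 ≤ energy T :=
  Finset.sum_nonneg fun _ _ => pow_nonneg (Real.sqrt_nonneg _) 3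

theorem energy_dec [Fintype m] [Fintype n] [DecidableEq n] (T : Matrix m n ℝ) :
    ∃ (O : Matrix n n ℝ) (σ : n → ℝ), Oᵀ * O = 1 ∧ O * Oᵀ = 1 ∧ (∀ i, 0 ≤ σ i) ∧
      (T * O)ᵀ * (T * O) = diagonal (fun i => σ i ^ 2) ∧ energy T = ∑ i, σ i ^ 3 := by
  set h := gram_isHermitian T with hh
  refine ⟨(h.eigenvectorUnitary : Matrix n n ℝ), fun i => Real.sqrt (h.eigenvalues i), ?_, ?_,
    fun i => Real.sqrt_nonneg _, ?_, rfl⟩
  · have := Unitary.coe_star_mul_self h.eigenvectorUnitary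
    rwa [star_eq_conjTranspose, conjTranspose_eq_transpose_of_trivial] at this
  · have := Unitary.coe_star_mul_self h.eigenvectorUnitary
    rw [star_eq_conjTranspose, conjTranspose_eq_transpose_of_trivial] at this
    exact mul_eq_one_comm.1 this
  · have hd := h.conjStarAlgAut_star_eigenvectorUnitary
    rw [Unitary.conjStarAlgAut_star_apply, star_eq_conjTranspose,
      conjTranspose_eq_transpose_of_trivial] at hd
    have hd' : (T * (h.eigenvectorUnitary : Matrix n n ℝ))ᵀ *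
        (T * (h.eigenvectorUnitary : Matrix n n ℝ)) = diagonal h.eigenvalues := by
      rw [transpose_mul, Matrix.mul_assoc, ← Matrix.mul_assoc Tᵀ, ← Matrix.mul_assoc]
      simpa using hd
    rw [hd']
    congr 1
    funext i
    have hnn : 0 ≤ h.eigenvalues i := by
      have := congrFun (congrFun hd' i) i
      rw [diagonal_apply_eq, Matrix.mul_apply] at this
      rw [← this]
      exact Finset.sum_nonneg fun r _ => mul_self_nonneg _
    rw [Real.sq_sqrt hnn]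

theorem conj_diagonal_apply [Fintype m] [Fintype n] [DecidableEq m] (c : Matrix m n ℝ)
    (d : m → ℝ) (j : n) : (cᵀ * diagonal d * c) j j = ∑ i, d i * (c i j) ^ 2 := by
  rw [Matrix.mul_assoc]
  simp [Matrix.mul_apply, Matrix.diagonal, sq, mul_comm, mul_left_comm]

theorem energy_col_test [Fintype m] [Fintype n] [DecidableEq n] (T : Matrix m n ℝ)
    {O' : Matrix n n ℝ} (hO' : O'ᵀ * O' = 1) {w : n → ℝ} (hw : ∀ j, 0 ≤ w j) :
    3 / 2 * ∑ j, w j * (O'ᵀ * (Tᵀ * T) * O') j j - 1 / 2 * ∑ j, (w j) ^ 3 ≤ energy T := by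
  obtain ⟨O, σ, hO, hO2, hσ, hT, hE⟩ := energy_dec T
  rw [hE]
  have hc : Contr 1 (Oᵀ * O') := by
    simpa using (contr_of_orth (M := Oᵀ) (by rw [transpose_transpose]; exact hO2)).mul
      (contr_of_orth hO')
  have e : O'ᵀ * (Tᵀ * T) * O' = (Oᵀ * O')ᵀ * diagonal (fun i => σ i ^ 2) * (Oᵀ * O') := by
    rw [← hT, transpose_mul T O, transpose_mul, transpose_transpose]
    calc O'ᵀ * (Tᵀ * T) * O' = O'ᵀ * ((O * Oᵀ) * (Tᵀ * T) * (O * Oᵀ)) * O' := by simp [hO2]
      _ = _ := by simp only [Matrix.mul_assoc]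
  simp only [e, conj_diagonal_apply]
  exact young_double (c := Oᵀ * O') (fun i => by simpa using hc.row_sq i)
    (fun j => by simpa using hc.col_sq j) hσ hw

theorem energy_factor [Fintype m] [Fintype n] [DecidableEq n] {T : Matrix m n ℝ}
    {O : Matrix n n ℝ} {σ : n → ℝ} (hσ : ∀ i, 0 ≤ σ i)
    (hT : (T * O)ᵀ * (T * O) = diagonal (fun i => σ i ^ 2)) :
    Contr 1 (T * O * diagonal (fun i => (σ i)⁻¹)) ∧
      T * O = T * O * diagonal (fun i => (σ i)⁻¹) * diagonal σ := by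
  have _ := hσ
  refine ⟨contr_of_gram (d := fun i => (σ i)⁻¹ * σ i ^ 2 * (σ i)⁻¹) ?_ fun i => ?_, ?_⟩
  · rw [transpose_mul, diagonal_transpose, Matrix.mul_assoc, ← Matrix.mul_assoc (T * O)ᵀ, hT,
      diagonal_mul_diagonal, diagonal_mul_diagonal]
    congr 1
    funext i
    ring
  · rcases eq_or_ne (σ i) 0 with h | h
    · simp [h]
    · exact le_of_eq (by field_simp)
  · rw [Matrix.mul_assoc (T * O), diagonal_mul_diagonal]
    ext r i
    rw [Matrix.mul_diagonal]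
    rcases eq_or_ne (σ i) 0 with h | h
    · have h0 : ∑ x, (T * O) x i * (T * O) x i = 0 := by
        have h0 := congrFun (congrFun hT i) i
        rw [diagonal_apply_eq, h, Matrix.mul_apply] at h0
        exact h0.trans (zero_pow two_ne_zero)
      have := (Finset.sum_eq_zero_iff_of_nonneg fun x _ => mul_self_nonneg ((T * O) x i)).1
        h0 r (Finset.mem_univ r)
      rw [mul_self_eq_zero.1 this, zero_mul]
    · rw [inv_mul_cancel₀ h, mul_one]

theorem energy_row_test [Fintype m] [Fintype n] [DecidableEq n] [Fintype p] (T : Matrix m n ℝ)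
    {N : Matrix m p ℝ} (hN : Contr 1 N) {w : p → ℝ} (hw : ∀ j, 0 ≤ w j) :
    3 / 2 * ∑ j, w j * (Nᵀ * (T * Tᵀ) * N) j j - 1 / 2 * ∑ j, (w j) ^ 3 ≤ energy T := by
  obtain ⟨O, σ, hO, hO2, hσ, hT, hE⟩ := energy_dec T
  rw [hE]
  obtain ⟨hF, hTO⟩ := energy_factor hσ hT
  generalize T * O * diagonal (fun i => (σ i)⁻¹) = F at hF hTO
  have hc : Contr 1 (Fᵀ * N) := by simpa using hF.transpose.mul hN
  have e : Nᵀ * (T * Tᵀ) * N = (Fᵀ * N)ᵀ * diagonal (fun i => σ i ^ 2) * (Fᵀ * N) := by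
    have hsq : diagonal (fun i => σ i ^ 2) = diagonal σ * (diagonal σ)ᵀ := by
      rw [diagonal_transpose, diagonal_mul_diagonal]; simp [sq]
    have : T * Tᵀ = F * diagonal (fun i => σ i ^ 2) * Fᵀ := by
      calc T * Tᵀ = (T * O) * (T * O)ᵀ := by
            rw [transpose_mul, Matrix.mul_assoc, ← Matrix.mul_assoc O, hO2, Matrix.one_mul]
        _ = _ := by rw [hTO, hsq, transpose_mul]; simp only [Matrix.mul_assoc]
    rw [this, transpose_mul, transpose_transpose]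
    simp only [Matrix.mul_assoc]
  simp only [e, conj_diagonal_apply]
  exact young_double (c := Fᵀ * N) (fun i => by simpa using hc.row_sq i)
    (fun j => by simpa using hc.col_sq j) hσ hw

theorem energy_le_of_gram [Fintype m] [Fintype l] [Fintype n] [Fintype q] [DecidableEq n]
    [DecidableEq q] (T : Matrix m n ℝ) (T' : Matrix l q ℝ) (f : q ≃ n)
    (h : T'ᵀ * T' = (Tᵀ * T).submatrix f f) : energy T ≤ energy T' := by
  obtain ⟨O, σ, hO, hO2, hσ, hT, hE⟩ := energy_dec T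
  have hO' : (O.submatrix f f)ᵀ * O.submatrix f f = 1 := by
    rw [transpose_submatrix, submatrix_mul_equiv, hO, submatrix_one_equiv]
  have key := energy_col_test T' hO' (w := fun j => σ (f j)) (fun j => hσ (f j))
  have e : (O.submatrix f f)ᵀ * (T'ᵀ * T') * O.submatrix f f
      = (diagonal (fun i => σ i ^ 2)).submatrix f f := by
    rw [h, transpose_submatrix, submatrix_mul_equiv, submatrix_mul_equiv, ← hT, transpose_mul]
    simp only [Matrix.mul_assoc]
  simp only [e, submatrix_apply, diagonal_apply_eq] at key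
  rw [Equiv.sum_comp f (fun j => σ j * σ j ^ 2), Equiv.sum_comp f (fun j => σ j ^ 3)] at key
  rw [hE]
  have : ∑ j, σ j * σ j ^ 2 = ∑ j, σ j ^ 3 := Finset.sum_congr rfl fun j _ => by ring
  linarith

theorem energy_submatrix [Fintype m] [Fintype l] [Fintype n] [Fintype q] [DecidableEq n]
    [DecidableEq q] (T : Matrix m n ℝ) (e : l ≃ m) (f : q ≃ n) :
    energy (T.submatrix e f) = energy T := by
  have h : (T.submatrix e f)ᵀ * T.submatrix e f = (Tᵀ * T).submatrix f f := by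
    rw [transpose_submatrix, submatrix_mul_equiv]
  refine le_antisymm ?_ (energy_le_of_gram T _ f h)
  refine energy_le_of_gram (T.submatrix e f) T f.symm ?_
  rw [h, submatrix_submatrix]
  simp

end Vale.Agent.P075
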