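import Mathlib

/-!
# Definitions for the dyadic triangular Hilbert form
-/

noncomputable section

open MeasureTheory

namespace Vale.Agent.P075

/-- The dyadic interval `[2^k n, 2^k (n+1))`. -/
def dyInterval (k : ℤ) (n : ℕ) : Set ℝ :=
  Set.Ico ((2 : ℝ) ^ k * n) ((2 : ℝ) ^ k * (n + 1))

/-- The Haar function of `dyInterval k n`: one on the left half, minus one on the right half. -/
def haar (k : ℤ) (n : ℕ) : ℝ → ℝ := fun x =>
  (dyInterval (k - 1) (2 * n)).indicator (fun _ => (1 : ℝ)) x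
    - (dyInterval (k - 1) (2 * n + 1)).indicator (fun _ => (1 : ℝ)) x

/-- The term of the dyadic triangular form attached to three dyadic intervals of scale `k`. -/
def term (F0 F1 F2 : ℝ × ℝ → ℝ) (k : ℤ) (n0 n1 n2 : ℕ) : ℝ :=
  (2 : ℝ) ^ (-k) *
    ∫ x0 in dyInterval k n0, ∫ x1 in dyInterval k n1, ∫ x2 in dyInterval k n2,
      F0 (x0, x1) * F1 (x1, x2) * F2 (x2, x0) * (haar k n0 x0 * haar k n1 x1 * haar k n2 x2)

/-- The `L^3` norm on the closed quadrant `[0,∞)²`. -/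
def norm3 (F : ℝ × ℝ → ℝ) : ℝ :=
  (∫ p in Set.Ici (0 : ℝ) ×ˢ Set.Ici (0 : ℝ), |F p| ^ 3) ^ ((1 : ℝ) / 3)

end Vale.Agent.P075

end
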