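import Mathlib
import Vale.Agent.P075.Basic

/-!
# The Schur multiplier `√a √b / (a + b)`
-/

open Matrix MeasureTheory Set
open scoped BigOperators

namespace Vale.Agent.P075

variable {m : Type*} [Fintype m]

/-- Kernel `√a √b/(a+b)`, zero when `a = b = 0`. -/
noncomputable def kern (a b : ℝ) : ℝ := Real.sqrt a * Real.sqrt b / (a + b)

/-- Quantity gained at one vertex. -/
noncomputable def qf (Z : Matrix m m ℝ) (s : m → ℝ) : ℝ :=
  ∑ i, ∑ j, (Z i j) ^ 2 * ((s i) ^ 2 * (s j) ^ 2 / (s i + s j))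

theorem qf_nonneg (Z : Matrix m m ℝ) {s : m → ℝ} (hs : ∀ i, 0 ≤ s i) : 0 ≤ qf Z s :=
  Finset.sum_nonneg fun i _ => Finset.sum_nonneg fun j _ => by
    have := hs i; have := hs j; positivity

theorem quad_le_of_contr {Z : Matrix m m ℝ} (hZ : Contr 1 Z) (w : m → ℝ) :
    |w ⬝ᵥ (Z *ᵥ w)| ≤ w ⬝ᵥ w := by
  have h := hZ.2 w
  rw [one_pow, one_mul] at h
  have h1 := dot_self_nonneg (w - Z *ᵥ w)
  have h2 := dot_self_nonneg (w + Z *ᵥ w)
  simp only [sub_dotProduct, dotProduct_sub, add_dotProduct, dotProduct_add,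
    dotProduct_comm (Z *ᵥ w) w] at h1 h2
  rw [abs_le]
  constructor <;> linarith

theorem kern_integral {a b : ℝ} (ha : 0 ≤ a) (hb : 0 ≤ b) :
    IntegrableOn (fun u => Real.sqrt a * Real.sqrt b * Real.exp (-(a + b) * u)) (Ioi 0) ∧
      ∫ u in Ioi (0 : ℝ), Real.sqrt a * Real.sqrt b * Real.exp (-(a + b) * u) = kern a b := by
  rcases eq_or_lt_of_le ha with rfl | ha'
  · simp [kern, IntegrableOn]
  · have hn : -(a + b) < 0 := by linarith
    refine ⟨(integrableOn_exp_mul_Ioi hn 0).const_mul _, ?_⟩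
    rw [integral_const_mul, integral_exp_mul_Ioi hn 0, kern, mul_zero, Real.exp_zero]
    field_simp

theorem kern_quad_bound {Z : Matrix m m ℝ} (hZ : Contr 1 Z) {t : m → ℝ} (ht : ∀ i, 0 ≤ t i)
    (x : m → ℝ) :
    |x ⬝ᵥ ((Matrix.of fun i j => Z i j * kern (t i) (t j)) *ᵥ x)| ≤ 1 / 2 * (x ⬝ᵥ x) := by
  set w : ℝ → m → ℝ := fun u i => x i * Real.sqrt (t i) * Real.exp (-(t i) * u) with hw
  set g : m → m → ℝ → ℝ := fun i j u =>
    Real.sqrt (t i) * Real.sqrt (t j) * Real.exp (-(t i + t j) * u) with hg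
  have hgi : ∀ i j, IntegrableOn (g i j) (Ioi 0) := fun i j => (kern_integral (ht i) (ht j)).1
  have hgv : ∀ i j, ∫ u in Ioi (0 : ℝ), g i j u = kern (t i) (t j) :=
    fun i j => (kern_integral (ht i) (ht j)).2
  have e1 : ∀ u, w u ⬝ᵥ (Z *ᵥ w u) = ∑ i, ∑ j, x i * x j * Z i j * g i j u := by
    intro u
    simp only [hw, hg, dotProduct, Matrix.mulVec, Finset.mul_sum]
    refine Finset.sum_congr rfl fun i _ => Finset.sum_congr rfl fun j _ => ?_
    rw [neg_add, add_mul, Real.exp_add]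
    ring
  have e2 : ∀ u, w u ⬝ᵥ w u = ∑ i, x i * x i * g i i u := by
    intro u
    simp only [hw, hg, dotProduct]
    refine Finset.sum_congr rfl fun i _ => ?_
    rw [neg_add, add_mul, Real.exp_add]
    ring
  have i1 : IntegrableOn (fun u => w u ⬝ᵥ (Z *ᵥ w u)) (Ioi 0) := by
    simp only [e1]
    exact integrable_finsetSum _ fun i _ => integrable_finsetSum _ fun j _ =>
      (hgi i j).const_mul _
  have i2 : IntegrableOn (fun u => w u ⬝ᵥ w u) (Ioi 0) := by
    simp only [e2]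
    exact integrable_finsetSum _ fun i _ => (hgi i i).const_mul _
  have v1 : ∫ u in Ioi (0 : ℝ), w u ⬝ᵥ (Z *ᵥ w u)
      = x ⬝ᵥ ((Matrix.of fun i j => Z i j * kern (t i) (t j)) *ᵥ x) := by
    simp only [e1]
    rw [integral_finsetSum _ fun i _ => integrable_finsetSum _ fun j _ => (hgi i j).const_mul _]
    simp only [dotProduct, Matrix.mulVec, Matrix.of_apply, Finset.mul_sum]
    refine Finset.sum_congr rfl fun i _ => ?_
    rw [integral_finsetSum _ fun j _ => (hgi i j).const_mul _]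
    refine Finset.sum_congr rfl fun j _ => ?_
    rw [integral_const_mul, hgv]
    ring
  have v2 : ∫ u in Ioi (0 : ℝ), w u ⬝ᵥ w u ≤ 1 / 2 * (x ⬝ᵥ x) := by
    simp only [e2]
    rw [integral_finsetSum _ fun i _ => (hgi i i).const_mul _, dotProduct, Finset.mul_sum]
    refine Finset.sum_le_sum fun i _ => ?_
    rw [integral_const_mul, hgv]
    have hk : kern (t i) (t i) ≤ 1 / 2 := by
      rw [kern, Real.mul_self_sqrt (ht i)]
      rcases eq_or_lt_of_le (ht i) with h | h
      · simp [← h]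
      · exact le_of_eq (by field_simp; ring)
    nlinarith [mul_self_nonneg (x i)]
  rw [← v1]
  refine le_trans ?_ v2
  refine (abs_integral_le_integral_abs).trans (integral_mono i1.abs i2 fun u => ?_)
  exact quad_le_of_contr hZ (w u)

end Vale.Agent.P075
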