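import Mathlib
import Vale.Agent.P075.Kernel

/-!
# The one-vertex gain of the Bellman function
-/

open Matrix
open scoped BigOperators

namespace Vale.Agent.P075

/-- The diagonal sign matrix on a doubled index type. -/
def sgnZ (ι : Type*) [DecidableEq ι] : Matrix (ι ⊕ ι) (ι ⊕ ι) ℝ :=
  fromBlocks 1 0 0 (-1)

variable {r q m : Type*} [Fintype r] [Fintype q] [Fintype m] [DecidableEq m]

theorem sum_mul_conj_diag {n : Type*} [Fintype n] [DecidableEq n] (w : n → ℝ)
    (R X : Matrix n n ℝ) :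
    ∑ j, w j * (Rᵀ * X * R) j j = trace (X * (R * diagonal w * Rᵀ)) := by
  have : trace (Rᵀ * X * R * diagonal w) = trace (X * (R * diagonal w * Rᵀ)) := by
    rw [Matrix.mul_assoc, Matrix.mul_assoc, trace_mul_comm Rᵀ]
    simp only [Matrix.mul_assoc]
  rw [← this]
  simp [trace, Matrix.mul_diagonal, mul_comm]

theorem trace_diag_cube {n : Type*} [Fintype n] [DecidableEq n] {R W : Matrix n n ℝ}
    {w : n → ℝ} (h2 : R * Rᵀ = 1) (hW : Rᵀ * W * R = diagonal w) :
    ∑ j, w j ^ 3 = trace (W * W * W) := by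
  have e : diagonal w * diagonal w * diagonal w = Rᵀ * (W * W * W) * R := by
    rw [← hW]
    calc Rᵀ * W * R * (Rᵀ * W * R) * (Rᵀ * W * R)
        = Rᵀ * W * (R * Rᵀ) * W * (R * Rᵀ) * W * R := by simp only [Matrix.mul_assoc]
      _ = _ := by simp only [h2, Matrix.mul_one, Matrix.mul_assoc]
  have := congrArg trace e
  rw [diagonal_mul_diagonal, diagonal_mul_diagonal, trace_diagonal, trace_mul_cycle, h2,
    Matrix.one_mul] at this
  rw [← this]
  exact Finset.sum_congr rfl fun j _ => by ring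

theorem split_lower (T' : Matrix r m ℝ) (C0 C1 : Matrix q m ℝ)
    (h : C0ᵀ * C0 + C1ᵀ * C1 = T'ᵀ * T') :
    Real.sqrt 2 * energy T' ≤ 2 * (energy C0 + energy C1) := by
  obtain ⟨O, σ, hO, hO2, hσ, hT, hE⟩ := energy_dec T'
  have h2 : 0 < Real.sqrt 2 := by positivity
  have hw : ∀ j, 0 ≤ σ j / Real.sqrt 2 := fun j => div_nonneg (hσ j) h2.le
  have k0 := energy_col_test C0 hO hw
  have k1 := energy_col_test C1 hO hw
  have hsum : ∀ j, (Oᵀ * (C0ᵀ * C0) * O) j j + (Oᵀ * (C1ᵀ * C1) * O) j j = σ j ^ 2 := by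
    intro j
    rw [← Matrix.add_apply, ← Matrix.add_mul, ← Matrix.mul_add, h]
    have := congrFun (congrFun hT j) j
    rw [diagonal_apply_eq, transpose_mul] at this
    rw [← this]
    simp only [Matrix.mul_assoc]
  have e1 : ∑ j, σ j / Real.sqrt 2 * (Oᵀ * (C0ᵀ * C0) * O) j j
      + ∑ j, σ j / Real.sqrt 2 * (Oᵀ * (C1ᵀ * C1) * O) j j = energy T' / Real.sqrt 2 := by
    rw [hE, Finset.sum_div, ← Finset.sum_add_distrib]
    refine Finset.sum_congr rfl fun j _ => ?_
    rw [← mul_add, hsum]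
    ring
  have e2 : ∑ j, (σ j / Real.sqrt 2) ^ 3 = energy T' / (2 * Real.sqrt 2) := by
    rw [hE, Finset.sum_div]
    refine Finset.sum_congr rfl fun j _ => ?_
    rw [div_pow]
    congr 1
    rw [pow_succ, Real.sq_sqrt (by norm_num : (0 : ℝ) ≤ 2)]
  rw [e2] at k0 k1
  have hmul : energy T' / Real.sqrt 2 ≤ energy C0 + energy C1 := by
    have : energy T' / (2 * Real.sqrt 2) = energy T' / Real.sqrt 2 / 2 := by ring
    linarith
  rw [div_le_iff₀ h2] at hmul
  calc Real.sqrt 2 * energy T' ≤ Real.sqrt 2 * ((energy C0 + energy C1) * Real.sqrt 2) :=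
        mul_le_mul_of_nonneg_left hmul h2.le
    _ = Real.sqrt 2 ^ 2 * (energy C0 + energy C1) := by ring
    _ = 2 * (energy C0 + energy C1) := by rw [Real.sq_sqrt (by norm_num : (0 : ℝ) ≤ 2)]

theorem row_scaled {n p : Type*} [Fintype n] [DecidableEq n] [Fintype p] (T : Matrix r n ℝ)
    {N : Matrix r p ℝ} (hN : Contr 1 N) {w : p → ℝ} (hw : ∀ j, 0 ≤ w j) :
    3 / 2 * ∑ j, w j * (Nᵀ * (T * Tᵀ) * N) j j - 1 / 4 * ∑ j, (w j) ^ 3
      ≤ Real.sqrt 2 * energy T := by
  have h2 : 0 < Real.sqrt 2 := by positivity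
  have h2' : Real.sqrt 2 ^ 2 = 2 := Real.sq_sqrt (by norm_num)
  have key := mul_le_mul_of_nonneg_left
    (energy_row_test T hN (w := fun j => w j / Real.sqrt 2) fun j => div_nonneg (hw j) h2.le)
    h2.le
  have e1 : Real.sqrt 2 * ∑ j, w j / Real.sqrt 2 * (Nᵀ * (T * Tᵀ) * N) j j
      = ∑ j, w j * (Nᵀ * (T * Tᵀ) * N) j j := by
    rw [Finset.mul_sum]
    exact Finset.sum_congr rfl fun j _ => by field_simp
  have e2 : Real.sqrt 2 * ∑ j, (w j / Real.sqrt 2) ^ 3 = 1 / 2 * ∑ j, (w j) ^ 3 := by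
    rw [Finset.mul_sum, Finset.mul_sum]
    refine Finset.sum_congr rfl fun j _ => ?_
    field_simp
    rw [h2']
    ring
  nlinarith [key, e1, e2]

omit [Fintype r] in
theorem submatrix_inl_gram (T : Matrix r (m ⊕ m) ℝ) :
    T.submatrix id Sum.inl * (T.submatrix id Sum.inl)ᵀ
      = T * (fromBlocks 1 0 0 0 : Matrix (m ⊕ m) (m ⊕ m) ℝ) * Tᵀ := by
  ext i j
  simp [Matrix.mul_apply, Fintype.sum_sum_type, Matrix.one_apply]

omit [Fintype r] in
theorem submatrix_inr_gram (T : Matrix r (m ⊕ m) ℝ) :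
    T.submatrix id Sum.inr * (T.submatrix id Sum.inr)ᵀ
      = T * (fromBlocks 0 0 0 1 : Matrix (m ⊕ m) (m ⊕ m) ℝ) * Tᵀ := by
  ext i j
  simp [Matrix.mul_apply, Fintype.sum_sum_type, Matrix.one_apply]

theorem gap (T : Matrix r (m ⊕ m) ℝ) (C00 C01 C10 C11 : Matrix q m ℝ)
    (h0 : C00ᵀ * C00 + C01ᵀ * C01 = (T.submatrix id Sum.inl)ᵀ * T.submatrix id Sum.inl)
    (h1 : C10ᵀ * C10 + C11ᵀ * C11 = (T.submatrix id Sum.inr)ᵀ * T.submatrix id Sum.inr) :
    ∃ (O : Matrix (m ⊕ m) (m ⊕ m) ℝ) (s : m ⊕ m → ℝ), Oᵀ * O = 1 ∧ O * Oᵀ = 1 ∧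
      (∀ i, 0 ≤ s i) ∧ (T * O)ᵀ * (T * O) = diagonal (fun i => s i ^ 2) ∧
      energy T + 3 / 4 * qf (Oᵀ * sgnZ m * O) s
        ≤ 2 * (energy C00 + energy C01 + energy C10 + energy C11) := by
  obtain ⟨O, s, hO, hO2, hs, hT, hE⟩ := energy_dec T
  refine ⟨O, s, hO, hO2, hs, hT, ?_⟩
  obtain ⟨hF, hTO⟩ := energy_factor hs hT
  set F := T * O * diagonal (fun i => (s i)⁻¹) with hFdef
  set Zh := Oᵀ * sgnZ m * O with hZh
  set S : Matrix (m ⊕ m) (m ⊕ m) ℝ := diagonal s with hS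
  set H : Matrix (m ⊕ m) (m ⊕ m) ℝ :=
    Matrix.of fun i j => Zh i j * (s i * s j / (s i + s j)) with hH
  have hZsym : Zhᵀ = Zh := by
    simp [hZh, sgnZ, transpose_mul, fromBlocks_transpose, Matrix.mul_assoc]
  have hZsym' : ∀ i j, Zh j i = Zh i j := fun i j => congrFun (congrFun hZsym i) j
  have hZc : Contr 1 Zh := by
    have hz : Contr 1 (sgnZ m) := contr_of_orth (by
      simp [sgnZ, fromBlocks_transpose, fromBlocks_multiply, fromBlocks_one])
    simpa [hZh] using ((contr_of_orth hO).transpose.mul hz).mul (contr_of_orth hO)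
  have hHsym : Hᵀ = H := by
    ext i j
    simp [hH, hZsym' i j, mul_comm (s i) (s j), add_comm (s i) (s j)]
  have hquad : ∀ x, |x ⬝ᵥ (H *ᵥ x)| ≤ 1 / 2 * (x ⬝ᵥ (S *ᵥ x)) := by
    intro x
    have h := kern_quad_bound hZc hs (fun i => Real.sqrt (s i) * x i)
    have e1 : (fun i => Real.sqrt (s i) * x i) ⬝ᵥ
        ((Matrix.of fun i j => Zh i j * kern (s i) (s j)) *ᵥ fun i => Real.sqrt (s i) * x i)
          = x ⬝ᵥ (H *ᵥ x) := by
      simp only [dotProduct, Matrix.mulVec, hH, Matrix.of_apply, Finset.mul_sum, kern]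
      refine Finset.sum_congr rfl fun i _ => Finset.sum_congr rfl fun j _ => ?_
      have hi : Real.sqrt (s i) ^ 2 = s i := Real.sq_sqrt (hs i)
      have hj : Real.sqrt (s j) ^ 2 = s j := Real.sq_sqrt (hs j)
      calc _ = x i * x j * Zh i j * (Real.sqrt (s i) ^ 2 * Real.sqrt (s j) ^ 2 / (s i + s j)) := by
            ring
        _ = _ := by rw [hi, hj]; ring
    have e2 : (fun i => Real.sqrt (s i) * x i) ⬝ᵥ (fun i => Real.sqrt (s i) * x i)
        = x ⬝ᵥ (S *ᵥ x) := by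
      simp only [dotProduct, hS, mulVec_diagonal]
      refine Finset.sum_congr rfl fun i _ => ?_
      calc _ = Real.sqrt (s i) ^ 2 * x i * x i := by ring
        _ = _ := by rw [Real.sq_sqrt (hs i)]; ring
    rwa [e1, e2] at h
  have hSnn : ∀ x, 0 ≤ x ⬝ᵥ (S *ᵥ x) := by
    intro x
    refine Finset.sum_nonneg fun i _ => ?_
    simp only [hS, mulVec_diagonal]
    nlinarith [hs i, mul_self_nonneg (x i)]
  -- diagonalise `S + H` and `S - H`
  obtain ⟨R0, w0, hR0, hR0', hW0⟩ := exists_orth_diag (S + H) (by simp [hS, hHsym])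
  obtain ⟨R1, w1, hR1, hR1', hW1⟩ := exists_orth_diag (S - H) (by simp [hS, hHsym])
  have hwnn : ∀ (W R : Matrix (m ⊕ m) (m ⊕ m) ℝ) (w : m ⊕ m → ℝ), Rᵀ * W * R = diagonal w →
      (∀ x, 0 ≤ x ⬝ᵥ (W *ᵥ x)) → ∀ j, 0 ≤ w j := by
    intro W R w h hx j
    have := hx (R *ᵥ Pi.single j 1)
    have e : (R *ᵥ Pi.single j 1) ⬝ᵥ (W *ᵥ (R *ᵥ Pi.single j 1))
        = Pi.single j 1 ⬝ᵥ ((Rᵀ * W * R) *ᵥ Pi.single j 1) := by
      rw [← Matrix.mulVec_mulVec, ← Matrix.mulVec_mulVec, dot_mulVec_right Rᵀ,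
        transpose_transpose]
    rw [e, h] at this
    simpa [Pi.single_apply, dotProduct] using this
  have hw0 : ∀ j, 0 ≤ w0 j := hwnn _ R0 w0 hW0 fun x => by
    have := hquad x; have := hSnn x
    rw [Matrix.add_mulVec, dotProduct_add]
    linarith [neg_abs_le (x ⬝ᵥ (H *ᵥ x))]
  have hw1 : ∀ j, 0 ≤ w1 j := hwnn _ R1 w1 hW1 fun x => by
    have := hquad x; have := hSnn x
    rw [Matrix.sub_mulVec, dotProduct_sub]
    linarith [le_abs_self (x ⬝ᵥ (H *ᵥ x))]
  have hback : ∀ (W R : Matrix (m ⊕ m) (m ⊕ m) ℝ) (w : m ⊕ m → ℝ), R * Rᵀ = 1 →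
      Rᵀ * W * R = diagonal w → R * diagonal w * Rᵀ = W := by
    intro W R w h2 h
    rw [← h]
    calc R * (Rᵀ * W * R) * Rᵀ = (R * Rᵀ) * W * (R * Rᵀ) := by simp only [Matrix.mul_assoc]
      _ = W := by rw [h2, Matrix.one_mul, Matrix.mul_one]
  have hTF : Tᵀ * F = O * S := by
    have e : (T * O)ᵀ * F = S := by
      rw [hFdef, ← Matrix.mul_assoc, hT, diagonal_mul_diagonal, hS]
      congr 1
      funext i
      rcases eq_or_ne (s i) 0 with h | h
      · simp [h]
      · field_simp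
    calc Tᵀ * F = (O * Oᵀ) * Tᵀ * F := by rw [hO2, Matrix.one_mul]
      _ = O * ((T * O)ᵀ * F) := by rw [transpose_mul]; simp only [Matrix.mul_assoc]
      _ = O * S := by rw [e]
  have hA : ∀ (W R P : Matrix (m ⊕ m) (m ⊕ m) ℝ) (w : m ⊕ m → ℝ), R * Rᵀ = 1 →
      Rᵀ * W * R = diagonal w →
      ∑ j, w j * ((F * R)ᵀ * (T * P * Tᵀ) * (F * R)) j j
        = trace (S * (Oᵀ * P * O) * S * W) := by
    intro W R P w h2 h
    have e : (F * R)ᵀ * (T * P * Tᵀ) * (F * R) = Rᵀ * (S * (Oᵀ * P * O) * S) * R := by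
      calc (F * R)ᵀ * (T * P * Tᵀ) * (F * R) = Rᵀ * (Tᵀ * F)ᵀ * P * (Tᵀ * F) * R := by
            simp only [transpose_mul, transpose_transpose, Matrix.mul_assoc]
        _ = _ := by
            rw [hTF]
            simp only [transpose_mul, hS, diagonal_transpose, Matrix.mul_assoc]
    simp only [e]
    rw [sum_mul_conj_diag, hback W R w h2 h]
  have hN : ∀ R : Matrix (m ⊕ m) (m ⊕ m) ℝ, Rᵀ * R = 1 → Contr 1 (F * R) := fun R h => by
    simpa using hF.mul (contr_of_orth h)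
  have k0 := row_scaled (T.submatrix id Sum.inl) (hN R0 hR0) hw0
  have k1 := row_scaled (T.submatrix id Sum.inr) (hN R1 hR1) hw1
  rw [submatrix_inl_gram, hA _ _ _ _ hR0' hW0, trace_diag_cube hR0' hW0] at k0
  rw [submatrix_inr_gram, hA _ _ _ _ hR1' hW1, trace_diag_cube hR1' hW1] at k1
  set P0 : Matrix (m ⊕ m) (m ⊕ m) ℝ := fromBlocks 1 0 0 0 with hP0
  set P1 : Matrix (m ⊕ m) (m ⊕ m) ℝ := fromBlocks 0 0 0 1 with hP1
  have hsum : Oᵀ * P0 * O + Oᵀ * P1 * O = 1 := by
    rw [← Matrix.add_mul, ← Matrix.mul_add, hP0, hP1, fromBlocks_add]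
    simp [fromBlocks_one, hO]
  have hdiff : Oᵀ * P0 * O - Oᵀ * P1 * O = Zh := by
    rw [← Matrix.sub_mul, ← Matrix.mul_sub, hP0, hP1, hZh, sgnZ]
    congr 2
    ext i j
    rcases i with i | i <;> rcases j with j | j <;> simp
  have eA : trace (S * (Oᵀ * P0 * O) * S * (S + H)) + trace (S * (Oᵀ * P1 * O) * S * (S - H))
      = trace (S * S * S) + trace (S * Zh * S * H) := by
    rw [← trace_add, ← trace_add]
    congr 1
    calc _ = S * (Oᵀ * P0 * O + Oᵀ * P1 * O) * S * S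
          + S * (Oᵀ * P0 * O - Oᵀ * P1 * O) * S * H := by noncomm_ring
      _ = _ := by rw [hsum, hdiff, Matrix.mul_one]
  have eW : trace ((S + H) * (S + H) * (S + H)) + trace ((S - H) * (S - H) * (S - H))
      = 2 * trace (S * S * S) + 6 * trace (S * H * H) := by
    have e : (S + H) * (S + H) * (S + H) + (S - H) * (S - H) * (S - H)
        = 2 • (S * S * S) + 2 • (S * H * H + H * S * H + H * H * S) := by noncomm_ring
    have c1 : trace (H * S * H) = trace (S * H * H) := by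
      rw [Matrix.mul_assoc, trace_mul_comm]
    have c2 : trace (H * H * S) = trace (S * H * H) := by rw [trace_mul_cycle]
    rw [← trace_add, e, trace_add, trace_smul, trace_smul, trace_add, trace_add, c1, c2]
    simp only [nsmul_eq_mul, Nat.cast_ofNat]
    ring
  have eS : trace (S * S * S) = energy T := by
    rw [hE, hS, diagonal_mul_diagonal, diagonal_mul_diagonal, trace_diagonal]
    exact Finset.sum_congr rfl fun j _ => by ring
  have eQ : trace (S * Zh * S * H) = qf Zh s := by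
    simp only [trace, Matrix.diag_apply, hS, qf]
    refine Finset.sum_congr rfl fun i _ => ?_
    rw [Matrix.mul_apply]
    refine Finset.sum_congr rfl fun j _ => ?_
    simp only [Matrix.mul_diagonal, Matrix.diagonal_mul, hH, Matrix.of_apply, hZsym' i j]
    rw [add_comm (s j) (s i)]
    ring
  have eH : 2 * trace (S * H * H) = qf Zh s := by
    have e : trace (S * H * H) = ∑ i, ∑ j, s i * H i j ^ 2 := by
      simp only [trace, Matrix.diag_apply, hS]
      refine Finset.sum_congr rfl fun i _ => ?_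
      rw [Matrix.mul_apply]
      refine Finset.sum_congr rfl fun j _ => ?_
      have : H j i = H i j := congrFun (congrFun hHsym i) j
      simp only [Matrix.diagonal_mul, this]
      ring
    have e' : trace (S * H * H) = ∑ i, ∑ j, s j * H i j ^ 2 := by
      rw [e, Finset.sum_comm]
      refine Finset.sum_congr rfl fun i _ => Finset.sum_congr rfl fun j _ => ?_
      have : H j i = H i j := congrFun (congrFun hHsym i) j
      rw [this]
    rw [two_mul]
    nth_rewrite 1 [e]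
    rw [e', ← Finset.sum_add_distrib]
    simp only [qf, ← Finset.sum_add_distrib]
    refine Finset.sum_congr rfl fun i _ => Finset.sum_congr rfl fun j _ => ?_
    simp only [hH, Matrix.of_apply]
    rcases eq_or_ne (s i + s j) 0 with h | h
    · simp [h]
    · field_simp
  have l0 := split_lower (T.submatrix id Sum.inl) C00 C01 h0
  have l1 := split_lower (T.submatrix id Sum.inr) C10 C11 h1
  linarith

end Vale.Agent.P075
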