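import Mathlib
import Vale.Agent.P075.Kernel

/-!
# Control of `tr (Z M)^3` by the quantity gained
-/

open Matrix
open scoped BigOperators

namespace Vale.Agent.P075

variable {κ : Type*} [Fintype κ] [DecidableEq κ]

theorem abs_trace_cube_le (Y : Matrix κ κ ℝ) : |trace (Y * Y * Y)| ≤ energy Y := by
  obtain ⟨O, σ, hO, hO2, hσ, hT, hE⟩ := energy_dec Y
  obtain ⟨hF, hTO⟩ := energy_factor hσ hT
  generalize Y * O * diagonal (fun i => (σ i)⁻¹) = F at hF hTO
  have hY : Y = F * diagonal σ * Oᵀ := by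
    rw [← hTO, Matrix.mul_assoc, hO2, Matrix.mul_one]
  set W := Oᵀ * F with hW
  have hWc : Contr 1 W := by simpa [hW] using (contr_of_orth hO).transpose.mul hF
  set D : Matrix κ κ ℝ := diagonal σ with hD
  set E : Matrix κ κ ℝ := diagonal (fun i => Real.sqrt (σ i)) with hEdef
  have hEE : E * E = D := by
    rw [hEdef, hD, diagonal_mul_diagonal]
    congr 1
    funext i
    exact Real.mul_self_sqrt (hσ i)
  have e : trace (Y * Y * Y) = trace (E * W * D * W * (D * W * E)) := by
    calc trace (Y * Y * Y) = trace (F * (D * W * D * W * D * Oᵀ)) := by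
          rw [hY, hW]; simp only [Matrix.mul_assoc]
      _ = trace (D * W * D * W * D * W) := by
          rw [trace_mul_comm, hW]; simp only [Matrix.mul_assoc]
      _ = trace (E * (E * W * D * W * D * W)) := by
          rw [← hEE]; simp only [Matrix.mul_assoc]
      _ = _ := by rw [trace_mul_comm E]; simp only [Matrix.mul_assoc]
  have b1 : fro (E * W * D) ≤ ∑ i, σ i ^ 3 := by
    have hle : ∀ i j, (E * W * D) i j ^ 2
        ≤ 1 / 3 * (σ i ^ 3 * W i j ^ 2) + 2 / 3 * (σ j ^ 3 * W i j ^ 2) := by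
      intro i j
      rw [hEdef, hD, Matrix.mul_diagonal, Matrix.diagonal_mul, mul_pow, mul_pow,
        Real.sq_sqrt (hσ i)]
      have := mul_le_mul_of_nonneg_right (young_sq_mul (hσ j) (hσ i)) (sq_nonneg (W i j))
      nlinarith
    calc fro (E * W * D)
        ≤ ∑ i, ∑ j, (1 / 3 * (σ i ^ 3 * W i j ^ 2) + 2 / 3 * (σ j ^ 3 * W i j ^ 2)) :=
          Finset.sum_le_sum fun i _ => Finset.sum_le_sum fun j _ => hle i j
      _ = 1 / 3 * ∑ i, σ i ^ 3 * ∑ j, W i j ^ 2 + 2 / 3 * ∑ j, σ j ^ 3 * ∑ i, W i j ^ 2 := by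
          simp only [Finset.sum_add_distrib, Finset.mul_sum]
          congr 1
          exact Finset.sum_comm
      _ ≤ 1 / 3 * ∑ i, σ i ^ 3 + 2 / 3 * ∑ j, σ j ^ 3 := by
          gcongr with i _ i _
          · exact mul_le_of_le_one_right (pow_nonneg (hσ i) 3) (by simpa using hWc.row_sq i)
          · exact mul_le_of_le_one_right (pow_nonneg (hσ i) 3) (by simpa using hWc.col_sq i)
      _ = _ := by ring
  have b2 : fro (D * W * E) ≤ ∑ i, σ i ^ 3 := by
    have hle : ∀ i j, (D * W * E) i j ^ 2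
        ≤ 1 / 3 * (σ j ^ 3 * W i j ^ 2) + 2 / 3 * (σ i ^ 3 * W i j ^ 2) := by
      intro i j
      rw [hEdef, hD, Matrix.mul_diagonal, Matrix.diagonal_mul, mul_pow, mul_pow,
        Real.sq_sqrt (hσ j)]
      have := mul_le_mul_of_nonneg_right (young_sq_mul (hσ i) (hσ j)) (sq_nonneg (W i j))
      nlinarith
    calc fro (D * W * E)
        ≤ ∑ i, ∑ j, (1 / 3 * (σ j ^ 3 * W i j ^ 2) + 2 / 3 * (σ i ^ 3 * W i j ^ 2)) :=
          Finset.sum_le_sum fun i _ => Finset.sum_le_sum fun j _ => hle i j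
      _ = 1 / 3 * ∑ j, σ j ^ 3 * ∑ i, W i j ^ 2 + 2 / 3 * ∑ i, σ i ^ 3 * ∑ j, W i j ^ 2 := by
          simp only [Finset.sum_add_distrib, Finset.mul_sum]
          congr 1
          exact Finset.sum_comm
      _ ≤ 1 / 3 * ∑ i, σ i ^ 3 + 2 / 3 * ∑ j, σ j ^ 3 := by
          gcongr with i _ i _
          · exact mul_le_of_le_one_right (pow_nonneg (hσ i) 3) (by simpa using hWc.col_sq i)
          · exact mul_le_of_le_one_right (pow_nonneg (hσ i) 3) (by simpa using hWc.row_sq i)
      _ = _ := by ring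
  have b3 : fro (E * W * D * W) ≤ fro (E * W * D) := by
    simpa using fro_mul_right (E * W * D) hWc
  have := abs_trace_mul_le (E * W * D * W) (D * W * E) one_pos
  rw [e, hE]
  linarith

theorem energy_diag_mul_le {s : κ → ℝ} (hs : ∀ i, 0 ≤ s i) {c : ℝ} (hc0 : 0 < c)
    {C : Matrix κ κ ℝ} (hC : Contr c C) :
    energy (diagonal s * C) ≤ c * fro (diagonal (fun i => s i * Real.sqrt (s i)) * C) := by
  obtain ⟨O, σ, hO, hO2, hσ, hT, hE⟩ := energy_dec (diagonal s * C)
  have hD : Contr c (C * O) := by simpa using hC.mul (contr_of_orth hO)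
  have hpt : ∀ i, σ i ^ 3 ≤ c * ∑ j, s j ^ 3 * (C * O) j i ^ 2 := by
    intro i
    have h := congrFun (congrFun hT i) i
    rw [diagonal_apply_eq, Matrix.mul_apply] at h
    simp only [transpose_apply, Matrix.mul_assoc, Matrix.diagonal_mul] at h
    have key : ∀ j, σ i * s j ^ 2 * (C * O) j i ^ 2
        ≤ 2 / 3 * c * (s j ^ 3 * (C * O) j i ^ 2)
          + σ i ^ 3 / (3 * c ^ 2) * (C * O) j i ^ 2 := by
      intro j
      have h1 := mul_le_mul_of_nonneg_left
        (young_sq_mul (hs j) (div_nonneg (hσ i) hc0.le)) hc0.le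
      have h2 : c * (s j ^ 2 * (σ i / c)) = σ i * s j ^ 2 := by field_simp
      have h3 : c * (2 / 3 * s j ^ 3 + 1 / 3 * (σ i / c) ^ 3)
          = 2 / 3 * c * s j ^ 3 + σ i ^ 3 / (3 * c ^ 2) := by field_simp
      rw [h2, h3] at h1
      have := mul_le_mul_of_nonneg_right h1 (sq_nonneg ((C * O) j i))
      linarith
    have hsum := Finset.sum_le_sum (fun j (_ : j ∈ Finset.univ) => key j)
    rw [Finset.sum_add_distrib, ← Finset.mul_sum, ← Finset.mul_sum] at hsum
    have hl : ∑ j, σ i * s j ^ 2 * (C * O) j i ^ 2 = σ i ^ 3 := by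
      rw [pow_succ' (σ i) 2, ← h, Finset.mul_sum]
      exact Finset.sum_congr rfl fun j _ => by ring
    have hcol := mul_le_mul_of_nonneg_left (hD.col_sq i)
      (div_nonneg (pow_nonneg (hσ i) 3) (by positivity : 0 ≤ 3 * c ^ 2))
    have h3 : σ i ^ 3 / (3 * c ^ 2) * c ^ 2 = σ i ^ 3 / 3 := by field_simp
    rw [hl] at hsum
    rw [h3] at hcol
    linarith
  rw [hE]
  refine (Finset.sum_le_sum fun i _ => hpt i).trans ?_
  rw [← Finset.mul_sum]
  refine mul_le_mul_of_nonneg_left ?_ hc0.le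
  have e : fro (diagonal (fun i => s i * Real.sqrt (s i)) * C * O)
      = ∑ i, ∑ j, s j ^ 3 * (C * O) j i ^ 2 := by
    rw [fro, Finset.sum_comm]
    refine Finset.sum_congr rfl fun i _ => Finset.sum_congr rfl fun j _ => ?_
    rw [Matrix.mul_assoc, Matrix.diagonal_mul, mul_pow, mul_pow, Real.sq_sqrt (hs j)]
    ring
  rw [← e]
  simpa using fro_mul_right (diagonal (fun i => s i * Real.sqrt (s i)) * C) (contr_of_orth hO)

theorem trilinear {s : κ → ℝ} (hs : ∀ i, 0 ≤ s i) {Z M : Matrix κ κ ℝ} (hZs : Zᵀ = Z)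
    (hZ : Contr 1 Z) (hMs : Mᵀ = M) {k : ℝ} (hk : 0 < k)
    (hMb : ∀ x : κ → ℝ, (M *ᵥ x) ⬝ᵥ (M *ᵥ x) ≤ k ^ 2 * ∑ i, s i ^ 2 * x i ^ 2) :
    |trace (Z * M * (Z * M) * (Z * M))| ≤ 8 * k ^ 3 * qf Z s := by
  have hMsym : ∀ i j, M j i = M i j := fun i j => congrFun (congrFun hMs i) j
  have hZsym : ∀ i j, Z j i = Z i j := fun i j => congrFun (congrFun hZs i) j
  have hz : ∀ i, s i = 0 → ∀ j, M j i = 0 := by
    intro i hi j
    have h := hMb (Pi.single i 1)
    simp [dotProduct, mulVec_single_one, Matrix.col, Pi.single_apply, hi] at h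
    have := (Finset.sum_eq_zero_iff_of_nonneg fun x _ => mul_self_nonneg (M x i)).1
      (le_antisymm h (Finset.sum_nonneg fun x _ => mul_self_nonneg (M x i))) j (Finset.mem_univ j)
    exact mul_self_eq_zero.1 this
  have hz' : ∀ i, s i = 0 → ∀ j, M i j = 0 := fun i hi j => by rw [← hMsym]; exact hz i hi j
  set S : Matrix κ κ ℝ := diagonal s with hS
  set K : Matrix κ κ ℝ := diagonal (fun i => (s i)⁻¹) * M with hKdef
  have hMK : M = S * K := by
    ext i j
    rw [hS, hKdef, Matrix.diagonal_mul, Matrix.diagonal_mul]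
    rcases eq_or_ne (s i) 0 with h | h
    · simp [h, hz' i h j]
    · field_simp
  have hKc : Contr k K := by
    have h : Contr k Kᵀ := by
      refine ⟨hk.le, fun x => ?_⟩
      rw [hKdef, transpose_mul, diagonal_transpose, hMs, ← Matrix.mulVec_mulVec]
      refine (hMb _).trans (mul_le_mul_of_nonneg_left ?_ (sq_nonneg k))
      refine Finset.sum_le_sum fun i _ => ?_
      rw [mulVec_diagonal]
      rcases eq_or_ne (s i) 0 with h | h
      · simpa [h] using mul_self_nonneg (x i)
      · exact le_of_eq (by field_simp)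
    simpa using h.transpose
  set U : Matrix κ κ ℝ := Matrix.of fun i j => Z i j * (s i ^ 2 / (s i ^ 2 + s j ^ 2)) with hU
  set A : Matrix κ κ ℝ := Matrix.of fun i j => Z i j * (s i * s j / (s i ^ 2 + s j ^ 2)) with hA
  have hAs : Aᵀ = A := by
    ext i j
    simp [hA, hZsym i j, mul_comm (s i) (s j), add_comm (s i ^ 2) (s j ^ 2)]
  have hAq : ∀ x, |x ⬝ᵥ (A *ᵥ x)| ≤ 1 / 2 * (x ⬝ᵥ x) := by
    intro x
    have h := kern_quad_bound hZ (fun i => sq_nonneg (s i)) x
    simpa only [kern, Real.sqrt_sq (hs _), ← hA] using h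
  have hAc : Contr (1 / 2) A := by
    refine ⟨by norm_num, fun y => ?_⟩
    have e : ((2 : ℝ) • (A *ᵥ y)) ⬝ᵥ (A *ᵥ y) = y ⬝ᵥ (A *ᵥ ((2 : ℝ) • (A *ᵥ y))) := by
      rw [dot_mulVec_right A y, hAs, dotProduct_comm]
    have h1 := abs_le.1 (hAq ((2 : ℝ) • (A *ᵥ y) + y))
    have h2 := abs_le.1 (hAq ((2 : ℝ) • (A *ᵥ y) - y))
    simp only [Matrix.mulVec_add, Matrix.mulVec_sub, add_dotProduct, dotProduct_add,
      sub_dotProduct, dotProduct_sub, ← e] at h1 h2
    simp only [smul_dotProduct, dotProduct_smul, smul_eq_mul, dotProduct_comm y (A *ᵥ y),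
      dotProduct_comm y ((2 : ℝ) • (A *ᵥ y))] at h1 h2
    linarith [h1.2, h2.1]
  have hUS : U * S = S * A := by
    ext i j
    rw [hS, Matrix.mul_diagonal, Matrix.diagonal_mul]
    simp only [hU, hA, Matrix.of_apply]
    ring
  have hMZM : M * (U + Uᵀ) * M = M * Z * M := by
    ext a b
    simp only [Matrix.mul_apply, Finset.sum_mul]
    refine Finset.sum_congr rfl fun j _ => Finset.sum_congr rfl fun i _ => ?_
    rcases eq_or_ne (s i) 0 with h | h
    · simp [hz i h a]
    rcases eq_or_ne (s j) 0 with h' | h'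
    · simp [hz' j h' b]
    have hi := (hs i).lt_of_ne' h
    have : U i j + U j i = Z i j := by
      simp only [hU, Matrix.of_apply, hZsym i j, add_comm (s j ^ 2) (s i ^ 2)]
      field_simp
    simp only [Matrix.add_apply, transpose_apply, this]
  set f : Matrix κ κ ℝ → Matrix κ κ ℝ → Matrix κ κ ℝ → ℝ :=
    fun a b c => trace (a * M * (b * M) * (c * M)) with hf
  have cyc : ∀ a b c, f a b c = f b c a := by
    intro a b c
    simp only [hf]
    rw [Matrix.mul_assoc (a * M), trace_mul_comm]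
  have mid : ∀ a c, f a (U + Uᵀ) c = f a Z c := by
    intro a c
    simp only [hf]
    calc trace (a * M * ((U + Uᵀ) * M) * (c * M))
        = trace (a * (M * (U + Uᵀ) * M) * (c * M)) := by simp only [Matrix.mul_assoc]
      _ = _ := by rw [hMZM]; simp only [Matrix.mul_assoc]
  have tr3 : f Uᵀ Uᵀ Uᵀ = f U U U := by
    simp only [hf]
    rw [← trace_transpose]
    simp only [transpose_mul, transpose_transpose, hMs]
    rw [← Matrix.mul_assoc, Matrix.mul_assoc M, Matrix.mul_assoc M, trace_mul_comm M]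
    simp only [Matrix.mul_assoc]
  set W := U + Uᵀ with hW
  have hexp : f Z Z Z = 2 * f U U U + 3 * f Uᵀ U Z := by
    have h1 : f Z Z Z = f W W W := by
      calc f Z Z Z = f Z W Z := (mid Z Z).symm
        _ = f W Z Z := cyc Z W Z
        _ = f W W Z := (mid W Z).symm
        _ = f W Z W := cyc W W Z
        _ = f W W W := (mid W W).symm
    have h2 : f Uᵀ U Z = f Uᵀ U W := by
      rw [cyc Uᵀ U Z, ← mid U Uᵀ, cyc Uᵀ U W]
    have h3 : f W W W = f U U U + f U U Uᵀ + f U Uᵀ U + f U Uᵀ Uᵀ + f Uᵀ U U + f Uᵀ U Uᵀ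
        + f Uᵀ Uᵀ U + f Uᵀ Uᵀ Uᵀ := by
      simp only [hf, hW, Matrix.add_mul, Matrix.mul_add, trace_add]
      ring
    have h4 : f Uᵀ U W = f Uᵀ U U + f Uᵀ U Uᵀ := by
      simp only [hf, hW, Matrix.add_mul, Matrix.mul_add, trace_add]
    have c1 := cyc Uᵀ U U
    have c2 := cyc U U Uᵀ
    have c3 := cyc Uᵀ U Uᵀ
    have c4 := cyc U Uᵀ Uᵀ
    rw [h1, h2, h3, h4, tr3]
    linarith
  set G : Matrix κ κ ℝ := diagonal (fun i => s i * Real.sqrt (s i)) with hG
  set P := G * A with hP
  have hR : fro P ≤ 2 * qf Z s := by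
    rw [fro, qf, Finset.mul_sum]
    refine Finset.sum_le_sum fun i _ => ?_
    rw [Finset.mul_sum]
    refine Finset.sum_le_sum fun j _ => ?_
    simp only [hP, hG, hA, Matrix.diagonal_mul, Matrix.of_apply]
    have hi := hs i
    have hj := hs j
    rcases eq_or_lt_of_le (add_nonneg hi hj) with h | h
    · have : s i = 0 := by linarith
      simp [this]
    have hd : 0 < s i ^ 2 + s j ^ 2 := by nlinarith [mul_pos h h, sq_nonneg (s i - s j)]
    have key : s i ^ 3 * (s i + s j) ≤ 2 * (s i ^ 2 + s j ^ 2) ^ 2 := by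
      nlinarith [sq_nonneg (s i ^ 2 - s i * s j), sq_nonneg (s i * s j), sq_nonneg (s j ^ 2),
        mul_nonneg (sq_nonneg (s i)) (mul_nonneg hi hj)]
    calc (s i * Real.sqrt (s i) * (Z i j * (s i * s j / (s i ^ 2 + s j ^ 2)))) ^ 2
        = Z i j ^ 2 * (s i ^ 2 * s j ^ 2 / (s i + s j)) *
          (s i ^ 3 * (s i + s j) / (s i ^ 2 + s j ^ 2) ^ 2) := by
          rw [mul_pow, mul_pow, Real.sq_sqrt hi]
          field_simp
      _ ≤ Z i j ^ 2 * (s i ^ 2 * s j ^ 2 / (s i + s j)) * 2 := by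
          refine mul_le_mul_of_nonneg_left ?_ (by positivity)
          rwa [div_le_iff₀ (by positivity)]
      _ = _ := by ring
  have hUM : U * M = S * (A * K) := by
    rw [hMK, ← Matrix.mul_assoc, hUS, Matrix.mul_assoc]
  have hcube : |f U U U| ≤ k ^ 3 / 2 * fro P := by
    simp only [hf, hUM]
    refine (abs_trace_cube_le _).trans ?_
    have hC : Contr (1 / 2 * k) (A * K) := hAc.mul hKc
    refine (energy_diag_mul_le hs (by positivity) hC).trans ?_
    rw [← Matrix.mul_assoc, ← hG, ← hP]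
    refine (mul_le_mul_of_nonneg_left (fro_mul_right P hKc) (by positivity)).trans_eq ?_
    ring
  set K' : Matrix κ κ ℝ := Matrix.of fun i j => M i j / (Real.sqrt (s i) * Real.sqrt (s j))
    with hK'
  have hK'z : ∀ i j, s j = 0 → K' i j = 0 := fun i j h => by simp [hK', h]
  have hMK' : ∀ i j, M i j = Real.sqrt (s i) * K' i j * Real.sqrt (s j) := by
    intro i j
    rcases eq_or_ne (s i) 0 with h | h
    · simp [hz' i h j, hK']
    rcases eq_or_ne (s j) 0 with h' | h'
    · simp [hz j h' i, hK']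
    have := Real.sqrt_ne_zero'.2 ((hs i).lt_of_ne' h)
    have := Real.sqrt_ne_zero'.2 ((hs j).lt_of_ne' h')
    simp only [hK', Matrix.of_apply]
    field_simp
  have hK'c : Contr k K' := by
    have hsym : K'ᵀ = K' := by
      ext i j
      simp [hK', hMsym i j, mul_comm (Real.sqrt (s i))]
    obtain ⟨R, w, hR1, hR2, hRw⟩ := exists_orth_diag K' hsym
    have heig : K' * R = R * diagonal w := by
      rw [← hRw, ← Matrix.mul_assoc, ← Matrix.mul_assoc, hR2, Matrix.one_mul]
    have hw : ∀ j, w j ^ 2 ≤ k ^ 2 := by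
      intro j
      have hev : ∀ i, ∑ l, K' i l * R l j = w j * R i j := fun i => by
        have := congrFun (congrFun heig i) j
        rw [Matrix.mul_apply, Matrix.mul_diagonal] at this
        rw [this]; ring
      have hn : ∑ i, R i j ^ 2 = 1 := by
        have := congrFun (congrFun hR1 j) j
        rw [Matrix.mul_apply, Matrix.one_apply_eq] at this
        rw [← this]
        exact Finset.sum_congr rfl fun i _ => by rw [transpose_apply]; ring
      have h := hMb fun l => R l j / Real.sqrt (s l)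
      have e1 : (M *ᵥ fun l => R l j / Real.sqrt (s l))
          = fun i => Real.sqrt (s i) * (w j * R i j) := by
        funext i
        rw [← hev i, Finset.mul_sum]
        refine Finset.sum_congr rfl fun l _ => ?_
        change M i l * (R l j / Real.sqrt (s l)) = _
        rw [hMK' i l]
        rcases eq_or_ne (s l) 0 with h' | h'
        · simp [h', hK'z i l h']
        · have := Real.sqrt_ne_zero'.2 ((hs l).lt_of_ne' h')
          field_simp
      have e2 : ∑ l, s l ^ 2 * (R l j / Real.sqrt (s l)) ^ 2 = ∑ l, s l * R l j ^ 2 := by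
        refine Finset.sum_congr rfl fun l _ => ?_
        rw [div_pow, Real.sq_sqrt (hs l)]
        rcases eq_or_ne (s l) 0 with h' | h'
        · simp [h']
        · field_simp
      have e3 : (fun i => Real.sqrt (s i) * (w j * R i j)) ⬝ᵥ
          (fun i => Real.sqrt (s i) * (w j * R i j)) = w j ^ 2 * ∑ l, s l * R l j ^ 2 := by
        rw [dotProduct, Finset.mul_sum]
        refine Finset.sum_congr rfl fun l _ => ?_
        calc _ = Real.sqrt (s l) ^ 2 * (w j ^ 2 * R l j ^ 2) := by ring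
          _ = _ := by rw [Real.sq_sqrt (hs l)]; ring
      rw [e1, e2, e3] at h
      rcases eq_or_lt_of_le (Finset.sum_nonneg fun l (_ : l ∈ Finset.univ) =>
        mul_nonneg (hs l) (sq_nonneg (R l j))) with h0 | h0
      · have hl := (Finset.sum_eq_zero_iff_of_nonneg fun l _ =>
          mul_nonneg (hs l) (sq_nonneg (R l j))).1 h0.symm
        have hwz : ∀ i, w j * R i j = 0 := fun i => by
          rw [← hev i]
          refine Finset.sum_eq_zero fun l _ => ?_
          rcases mul_eq_zero.1 (hl l (Finset.mem_univ l)) with h' | h'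
          · rw [hK'z i l h', zero_mul]
          · rw [pow_eq_zero_iff two_ne_zero] at h'
            rw [h', mul_zero]
        have : w j ^ 2 * ∑ i, R i j ^ 2 = 0 := by
          rw [Finset.mul_sum]
          exact Finset.sum_eq_zero fun i _ => by rw [← mul_pow, hwz i]; simp
        rw [hn, mul_one] at this
        rw [this]; positivity
      · exact le_of_mul_le_mul_right h h0
    have hd : Contr k (diagonal w) := by
      refine ⟨hk.le, fun x => ?_⟩
      rw [dotProduct, dotProduct, Finset.mul_sum]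
      refine Finset.sum_le_sum fun i _ => ?_
      rw [mulVec_diagonal]
      nlinarith [mul_le_mul_of_nonneg_right (hw i) (mul_self_nonneg (x i))]
    have e : K' = R * diagonal w * Rᵀ := by
      rw [← heig, Matrix.mul_assoc, hR2, Matrix.mul_one]
    rw [e]
    simpa using ((contr_of_orth hR1).mul hd).mul (contr_of_orth hR1).transpose
  have hmixed : |f Uᵀ U Z| ≤ k ^ 3 * fro P := by
    have hSMS : S * M * S = G * K' * G := by
      ext i j
      simp only [hS, hG, Matrix.mul_diagonal, Matrix.diagonal_mul]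
      rw [hMK' i j]
      ring
    have hMV : M * Uᵀ = Kᵀ * (A * S) := by
      have := congrArg Matrix.transpose hUM
      simp only [transpose_mul, hMs, hAs, hS, diagonal_transpose] at this
      rw [this, hS, Matrix.mul_assoc]
    have e : f Uᵀ U Z = trace (Pᵀ * (K' * P * (K * Z * Kᵀ))) := by
      simp only [hf]
      calc trace (Uᵀ * M * (U * M) * (Z * M))
          = trace ((Uᵀ * M * (U * M) * Z) * M) := by simp only [Matrix.mul_assoc]
        _ = trace ((M * Uᵀ) * M * (U * M) * Z) := by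
            rw [trace_mul_comm]; simp only [Matrix.mul_assoc]
        _ = trace (Kᵀ * (A * (S * M * S) * A * K * Z)) := by
            rw [hMV, hUM]; simp only [Matrix.mul_assoc]
        _ = _ := by
            rw [trace_mul_comm, hSMS, hP, transpose_mul G A, hAs, hG, diagonal_transpose]
            simp only [Matrix.mul_assoc]
    have hV : Contr (k * k) (K * Z * Kᵀ) := by
      simpa using (hKc.mul hZ).mul hKc.transpose
    have b : fro (K' * P * (K * Z * Kᵀ)) ≤ k ^ 6 * fro P := by
      refine (fro_mul_right _ hV).trans ?_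
      refine (mul_le_mul_of_nonneg_left (fro_mul_left hK'c P) (by positivity)).trans_eq ?_
      ring
    have hb := abs_trace_mul_le Pᵀ (K' * P * (K * Z * Kᵀ)) (c := 1 / k ^ 3) (by positivity)
    rw [fro_transpose, ← e] at hb
    have hb' : 1 / k ^ 3 * fro (K' * P * (K * Z * Kᵀ)) ≤ 1 / k ^ 3 * (k ^ 6 * fro P) :=
      mul_le_mul_of_nonneg_left b (by positivity)
    have q1 : fro P / (1 / k ^ 3) = k ^ 3 * fro P := by field_simp
    have q2 : 1 / k ^ 3 * (k ^ 6 * fro P) = k ^ 3 * fro P := by field_simp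
    rw [q1] at hb
    rw [q2] at hb'
    linarith
  change |f Z Z Z| ≤ _
  rw [hexp]
  have hk3 : 0 ≤ k ^ 3 := by positivity
  have : k ^ 3 * fro P ≤ k ^ 3 * (2 * qf Z s) := mul_le_mul_of_nonneg_left hR hk3
  obtain ⟨a1, a2⟩ := abs_le.1 hcube
  obtain ⟨b1, b2⟩ := abs_le.1 hmixed
  rw [abs_le]
  constructor <;> linarith

end Vale.Agent.P075
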