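import Mathlib
import Vale.Agent.P075.Gap
import Vale.Agent.P075.Trilinear

/-!
# The Bellman inequality at one node
-/

open Matrix
open scoped BigOperators

namespace Vale.Agent.P075

variable {n : Type*} [Fintype n] [DecidableEq n]

/-- The three vertex energies of a triangle of matrices. -/
noncomputable def psi (A B C : Matrix n n ℝ) : ℝ :=
  energy (fromRows A Bᵀ) + energy (fromRows B Cᵀ) + energy (fromRows C Aᵀ)

theorem psi_nonneg (A B C : Matrix n n ℝ) : 0 ≤ psi A B C :=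
  add_nonneg (add_nonneg (energy_nonneg _) (energy_nonneg _)) (energy_nonneg _)

theorem vertex_gap (A00 A01 A10 A11 B00 B01 B10 B11 : Matrix n n ℝ) :
    ∃ (O : Matrix (n ⊕ n) (n ⊕ n) ℝ) (s : n ⊕ n → ℝ), Oᵀ * O = 1 ∧ O * Oᵀ = 1 ∧ (∀ i, 0 ≤ s i) ∧
      (fromRows (fromBlocks A00 A01 A10 A11) (fromBlocks B00 B01 B10 B11)ᵀ * O)ᵀ *
        (fromRows (fromBlocks A00 A01 A10 A11) (fromBlocks B00 B01 B10 B11)ᵀ * O)
          = diagonal (fun i => s i ^ 2) ∧
      energy (fromRows (fromBlocks A00 A01 A10 A11) (fromBlocks B00 B01 B10 B11)ᵀ)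
          + 3 / 4 * qf (Oᵀ * sgnZ n * O) s
        ≤ 2 * (energy (fromRows A00 B00ᵀ) + energy (fromRows A10 B01ᵀ)
            + energy (fromRows A01 B11ᵀ) + energy (fromRows A11 B10ᵀ)) := by
  have e0 : (fromRows (fromBlocks A00 A01 A10 A11) (fromBlocks B00 B01 B10 B11)ᵀ).submatrix id
      Sum.inl = fromRows (fromRows A00 A10) (fromRows B00ᵀ B01ᵀ) := by
    ext i j
    rcases i with (i | i) | (i | i) <;> simp
  have e1 : (fromRows (fromBlocks A00 A01 A10 A11) (fromBlocks B00 B01 B10 B11)ᵀ).submatrix id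
      Sum.inr = fromRows (fromRows A01 A11) (fromRows B10ᵀ B11ᵀ) := by
    ext i j
    rcases i with (i | i) | (i | i) <;> simp
  refine gap _ _ _ _ _ ?_ ?_
  · rw [e0]
    simp only [transpose_fromRows, fromCols_mul_fromRows]
    abel
  · rw [e1]
    simp only [transpose_fromRows, fromCols_mul_fromRows]
    abel

omit [DecidableEq n] in
theorem trace_blocks (A B C D : Matrix n n ℝ) :
    trace (fromBlocks A B C D) = trace A + trace D := by
  simp [trace, Fintype.sum_sum_type]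

omit [DecidableEq n] in
theorem six_cycles (za zb zc A B C : Matrix n n ℝ) (ha : zaᵀ = za) (hb : zbᵀ = zb) (hc : zcᵀ = zc) :
    trace ((Matrix.comp (Fin 3) (Fin 3) n n ℝ) (diagonal ![za, zb, zc] * !![0, A, Cᵀ; Aᵀ, 0, B; C, Bᵀ, 0]
        * (diagonal ![za, zb, zc] * !![0, A, Cᵀ; Aᵀ, 0, B; C, Bᵀ, 0])
        * (diagonal ![za, zb, zc] * !![0, A, Cᵀ; Aᵀ, 0, B; C, Bᵀ, 0])))
      = 6 * trace (za * A * (zb * B) * (zc * C)) := by
  set t := trace (za * A * (zb * B) * (zc * C)) with ht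
  have c1 : trace (zb * B * (zc * C) * (za * A)) = t := by
    rw [ht, Matrix.mul_assoc (za * A), trace_mul_comm (za * A)]
  have c2 : trace (zc * C * (za * A) * (zb * B)) = t := by
    rw [ht, trace_mul_comm _ (zc * C), Matrix.mul_assoc (zc * C)]
  have r : trace (za * Cᵀ * (zc * Bᵀ) * (zb * Aᵀ)) = t := by
    rw [ht, ← trace_transpose]
    simp only [transpose_mul, transpose_transpose, ha, hb, hc]
    rw [← Matrix.mul_assoc (A * zb), ← Matrix.mul_assoc _ C za, trace_mul_comm _ za]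
    simp only [Matrix.mul_assoc]
  have r1 : trace (zb * Aᵀ * (za * Cᵀ) * (zc * Bᵀ)) = t := by
    rw [← r, Matrix.mul_assoc (zb * Aᵀ), trace_mul_comm (zb * Aᵀ)]
  have r2 : trace (zc * Bᵀ * (zb * Aᵀ) * (za * Cᵀ)) = t := by
    rw [← r, trace_mul_comm _ (za * Cᵀ), Matrix.mul_assoc (za * Cᵀ)]
  have tr : ∀ N : Matrix (Fin 3) (Fin 3) (Matrix n n ℝ),
      trace ((Matrix.comp (Fin 3) (Fin 3) n n ℝ) N) = ∑ x, trace (N x x) := fun N => by
    simp [trace, Fintype.sum_prod_type]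
  have e : diagonal ![za, zb, zc] * !![0, A, Cᵀ; Aᵀ, 0, B; C, Bᵀ, 0]
      = !![0, za * A, za * Cᵀ; zb * Aᵀ, 0, zb * B; zc * C, zc * Bᵀ, 0] := by
    ext x y : 2
    rw [Matrix.diagonal_mul]
    revert x y
    simp only [Fin.forall_fin_succ, IsEmpty.forall_iff, Matrix.of_apply, Matrix.cons_val_zero,
      Matrix.cons_val_succ, Matrix.mul_zero, and_self]
  have h : (za * A * (zb * B) * (zc * C)).trace = t := rfl
  rw [tr, e]
  set N : Matrix (Fin 3) (Fin 3) (Matrix n n ℝ) :=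
    !![0, za * A, za * Cᵀ; zb * Aᵀ, 0, zb * B; zc * C, zc * Bᵀ, 0] with hN
  have n00 : N 0 0 = 0 := rfl
  have n01 : N 0 1 = za * A := rfl
  have n02 : N 0 2 = za * Cᵀ := rfl
  have n10 : N 1 0 = zb * Aᵀ := rfl
  have n11 : N 1 1 = 0 := rfl
  have n12 : N 1 2 = zb * B := rfl
  have n20 : N 2 0 = zc * C := rfl
  have n21 : N 2 1 = zc * Bᵀ := rfl
  have n22 : N 2 2 = 0 := rfl
  clear_value N
  simp only [Fin.sum_univ_three, Matrix.mul_apply, n00, n01, n02, n10, n11, n12, n20, n21, n22,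
    Matrix.mul_zero, Matrix.zero_mul, add_zero, zero_add, trace_add, trace_zero]
  rw [h, c1, c2, r, r1, r2]
  ring

theorem dot_sq_expand {p : Type*} [Fintype p] (u v : p → ℝ) :
    (u + v) ⬝ᵥ (u + v) ≤ 2 * (u ⬝ᵥ u) + 2 * (v ⬝ᵥ v) := by
  have h := dot_self_nonneg (u - v)
  simp only [sub_dotProduct, dotProduct_sub, add_dotProduct, dotProduct_add] at h ⊢
  linarith

theorem vertex_sum {A B : Matrix n n ℝ} {Oa Ob Oc : Matrix n n ℝ} (ha : Oa * Oaᵀ = 1)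
    (hc : Oc * Ocᵀ = 1) {s : n → ℝ}
    (h : (fromRows A Bᵀ * Ob)ᵀ * (fromRows A Bᵀ * Ob) = diagonal (fun i => s i ^ 2)) (v : n → ℝ) :
    ((Oaᵀ * A * Ob) *ᵥ v) ⬝ᵥ ((Oaᵀ * A * Ob) *ᵥ v)
      + ((Obᵀ * B * Oc)ᵀ *ᵥ v) ⬝ᵥ ((Obᵀ * B * Oc)ᵀ *ᵥ v) = ∑ i, s i ^ 2 * v i ^ 2 := by
  rw [dot_mulVec_self, dot_mulVec_self, ← dotProduct_add, ← Matrix.add_mulVec]
  have e : (Oaᵀ * A * Ob)ᵀ * (Oaᵀ * A * Ob) + (Obᵀ * B * Oc)ᵀᵀ * (Obᵀ * B * Oc)ᵀ
      = diagonal (fun i => s i ^ 2) := by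
    have e0 : (fromRows A Bᵀ * Ob)ᵀ * (fromRows A Bᵀ * Ob)
        = Obᵀ * (Aᵀ * A) * Ob + Obᵀ * (B * Bᵀ) * Ob := by
      rw [← Matrix.add_mul, ← Matrix.mul_add]
      calc _ = Obᵀ * ((fromRows A Bᵀ)ᵀ * fromRows A Bᵀ) * Ob := by
            simp only [transpose_mul, Matrix.mul_assoc]
        _ = _ := by rw [transpose_fromRows, fromCols_mul_fromRows, transpose_transpose]
    rw [← h, e0]
    congr 1
    · calc _ = Obᵀ * Aᵀ * (Oa * Oaᵀ) * A * Ob := by
            simp only [transpose_mul, transpose_transpose, Matrix.mul_assoc]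
        _ = _ := by rw [ha, Matrix.mul_one]; simp only [Matrix.mul_assoc]
    · calc _ = Obᵀ * B * (Oc * Ocᵀ) * Bᵀ * Ob := by
            simp only [transpose_mul, transpose_transpose, Matrix.mul_assoc]
        _ = _ := by rw [hc, Matrix.mul_one]; simp only [Matrix.mul_assoc]
  rw [e, dotProduct]
  refine Finset.sum_congr rfl fun i _ => ?_
  rw [mulVec_diagonal]
  ring

theorem node (A00 A01 A10 A11 B00 B01 B10 B11 C00 C01 C10 C11 : Matrix n n ℝ) :
    |2 * (trace (A00 * B00 * C00) + trace (A01 * B11 * C10) + trace (A10 * B01 * C11)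
          + trace (A11 * B10 * C01))
        - trace (fromBlocks A00 A01 A10 A11 * fromBlocks B00 B01 B10 B11
            * fromBlocks C00 C01 C10 C11)|
      ≤ 6 * (2 * (psi A00 B00 C00 + psi A01 B11 C10 + psi A10 B01 C11 + psi A11 B10 C01)
        - psi (fromBlocks A00 A01 A10 A11) (fromBlocks B00 B01 B10 B11)
            (fromBlocks C00 C01 C10 C11)) := by
  obtain ⟨Ob, sb, hb, hb', hsb, hTb, hgb⟩ := vertex_gap A00 A01 A10 A11 B00 B01 B10 B11
  obtain ⟨Oc, sc, hc, hc', hsc, hTc, hgc⟩ := vertex_gap B00 B01 B10 B11 C00 C01 C10 C11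
  obtain ⟨Oa, sa, ha, ha', hsa, hTa, hga⟩ := vertex_gap C00 C01 C10 C11 A00 A01 A10 A11
  set Z := sgnZ n with hZ
  have hsgn : trace (Z * fromBlocks A00 A01 A10 A11 * (Z * fromBlocks B00 B01 B10 B11)
        * (Z * fromBlocks C00 C01 C10 C11))
      = 2 * (trace (A00 * B00 * C00) + trace (A01 * B11 * C10) + trace (A10 * B01 * C11)
          + trace (A11 * B10 * C01))
        - trace (fromBlocks A00 A01 A10 A11 * fromBlocks B00 B01 B10 B11
            * fromBlocks C00 C01 C10 C11) := by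
    simp only [hZ, sgnZ, fromBlocks_multiply, trace_blocks, Matrix.one_mul, Matrix.zero_mul,
      add_zero, zero_add, Matrix.neg_mul, Matrix.mul_neg, Matrix.add_mul,
      trace_add, trace_neg, neg_neg]
    ring
  have hZs : Zᵀ = Z := by simp [hZ, sgnZ, fromBlocks_transpose]
  have hZc : Contr 1 Z := contr_of_orth (by
    simp [hZ, sgnZ, fromBlocks_transpose, fromBlocks_multiply, fromBlocks_one])
  set A := fromBlocks A00 A01 A10 A11 with hA
  set B := fromBlocks B00 B01 B10 B11 with hB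
  set C := fromBlocks C00 C01 C10 C11 with hC
  set za := Oaᵀ * Z * Oa with hza
  set zb := Obᵀ * Z * Ob with hzb
  set zc := Ocᵀ * Z * Oc with hzc
  have conj_sym : ∀ O : Matrix (n ⊕ n) (n ⊕ n) ℝ, (Oᵀ * Z * O)ᵀ = Oᵀ * Z * O := fun O => by
    simp only [transpose_mul, transpose_transpose, hZs, Matrix.mul_assoc]
  have conj_contr : ∀ O : Matrix (n ⊕ n) (n ⊕ n) ℝ, Oᵀ * O = 1 → Contr 1 (Oᵀ * Z * O) :=
    fun O h => by simpa using ((contr_of_orth h).transpose.mul hZc).mul (contr_of_orth h)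
  set Ah := Oaᵀ * A * Ob with hAh
  set Bh := Obᵀ * B * Oc with hBh
  set Ch := Ocᵀ * C * Oa with hCh
  set s : Fin 3 × (n ⊕ n) → ℝ := fun p => (![sa, sb, sc] : Fin 3 → n ⊕ n → ℝ) p.1 p.2 with hs
  have hsnn : ∀ p, 0 ≤ s p := by
    rintro ⟨x, i⟩
    revert x
    simp only [Fin.forall_fin_succ, IsEmpty.forall_iff]
    simp [hs, hsa, hsb, hsc]
  set Zk : Matrix (Fin 3) (Fin 3) (Matrix (n ⊕ n) (n ⊕ n) ℝ) := diagonal ![za, zb, zc] with hZk
  set Mk : Matrix (Fin 3) (Fin 3) (Matrix (n ⊕ n) (n ⊕ n) ℝ) :=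
    !![0, Ah, Chᵀ; Ahᵀ, 0, Bh; Ch, Bhᵀ, 0] with hMk
  set ZZ := (Matrix.comp (Fin 3) (Fin 3) (n ⊕ n) (n ⊕ n) ℝ) Zk with hZZ
  set MM := (Matrix.comp (Fin 3) (Fin 3) (n ⊕ n) (n ⊕ n) ℝ) Mk with hMM
  have z00 : Zk 0 0 = za := rfl
  have z01 : Zk 0 1 = 0 := rfl
  have z02 : Zk 0 2 = 0 := rfl
  have z10 : Zk 1 0 = 0 := rfl
  have z11 : Zk 1 1 = zb := rfl
  have z12 : Zk 1 2 = 0 := rfl
  have z20 : Zk 2 0 = 0 := rfl
  have z21 : Zk 2 1 = 0 := rfl
  have z22 : Zk 2 2 = zc := rfl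
  have m00 : Mk 0 0 = 0 := rfl
  have m01 : Mk 0 1 = Ah := rfl
  have m02 : Mk 0 2 = Chᵀ := rfl
  have m10 : Mk 1 0 = Ahᵀ := rfl
  have m11 : Mk 1 1 = 0 := rfl
  have m12 : Mk 1 2 = Bh := rfl
  have m20 : Mk 2 0 = Ch := rfl
  have m21 : Mk 2 1 = Bhᵀ := rfl
  have m22 : Mk 2 2 = 0 := rfl
  have s0 : ∀ i, s (0, i) = sa i := fun _ => rfl
  have s1 : ∀ i, s (1, i) = sb i := fun _ => rfl
  have s2 : ∀ i, s (2, i) = sc i := fun _ => rfl
  have hmul : ∀ X Y : Matrix (Fin 3) (Fin 3) (Matrix (n ⊕ n) (n ⊕ n) ℝ),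
      (Matrix.comp (Fin 3) (Fin 3) (n ⊕ n) (n ⊕ n) ℝ) (X * Y)
        = (Matrix.comp (Fin 3) (Fin 3) (n ⊕ n) (n ⊕ n) ℝ) X
          * (Matrix.comp (Fin 3) (Fin 3) (n ⊕ n) (n ⊕ n) ℝ) Y := fun X Y =>
    (Matrix.compRingEquiv (Fin 3) (n ⊕ n) ℝ).map_mul X Y
  have hmv : ∀ (X : Matrix (Fin 3) (Fin 3) (Matrix (n ⊕ n) (n ⊕ n) ℝ))
      (v : Fin 3 × (n ⊕ n) → ℝ) (x : Fin 3),
      (fun i => ((Matrix.comp (Fin 3) (Fin 3) (n ⊕ n) (n ⊕ n) ℝ) X *ᵥ v) (x, i))
        = X x 0 *ᵥ (fun i => v (0, i)) + X x 1 *ᵥ (fun i => v (1, i))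
          + X x 2 *ᵥ (fun i => v (2, i)) := by
    intro X v x
    funext i
    simp [Matrix.mulVec, dotProduct, Fintype.sum_prod_type, Fin.sum_univ_three, add_assoc]
  have hsplit : ∀ u : Fin 3 × (n ⊕ n) → ℝ, u ⬝ᵥ u
      = (fun i => u (0, i)) ⬝ᵥ (fun i => u (0, i)) + (fun i => u (1, i)) ⬝ᵥ (fun i => u (1, i))
        + (fun i => u (2, i)) ⬝ᵥ (fun i => u (2, i)) := by
    intro u
    simp only [dotProduct]
    rw [Fintype.sum_prod_type, Fin.sum_univ_three]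
  have hTcomp : ∀ X : Matrix (Fin 3) (Fin 3) (Matrix (n ⊕ n) (n ⊕ n) ℝ),
      (∀ x y, (X x y)ᵀ = X y x) →
        ((Matrix.comp (Fin 3) (Fin 3) (n ⊕ n) (n ⊕ n) ℝ) X)ᵀ
          = (Matrix.comp (Fin 3) (Fin 3) (n ⊕ n) (n ⊕ n) ℝ) X := by
    intro X h
    ext p r
    simp only [transpose_apply, Matrix.comp_apply]
    rw [← h r.1 p.1, transpose_apply]
    try exact congrFun (congrFun (h p.1 r.1) _) _
  have hMsym : MMᵀ = MM := by
    refine hTcomp Mk fun x y => ?_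
    revert x y
    simp only [hMk, Fin.forall_fin_succ, IsEmpty.forall_iff, Matrix.of_apply,
      Matrix.cons_val_zero, Matrix.cons_val_succ, transpose_zero, transpose_transpose, and_self]
  have hZsym : ZZᵀ = ZZ := by
    refine hTcomp Zk fun x y => ?_
    rcases eq_or_ne x y with h | h
    · subst h
      revert x
      simp only [Fin.forall_fin_succ, IsEmpty.forall_iff]
      simp [hZk, hza, hzb, hzc, conj_sym]
    · simp [hZk, h, h.symm]
  have hZcontr : Contr 1 ZZ := by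
    refine ⟨zero_le_one, fun v => ?_⟩
    have k0 := (conj_contr Oa ha).2 fun i => v (0, i)
    have k1 := (conj_contr Ob hb).2 fun i => v (1, i)
    have k2 := (conj_contr Oc hc).2 fun i => v (2, i)
    rw [← hza] at k0
    rw [← hzb] at k1
    rw [← hzc] at k2
    rw [hsplit, hsplit v, hZZ, hmv, hmv, hmv]
    simp only [z00, z01, z02, z10, z11, z12, z20, z21, z22, Matrix.zero_mulVec, add_zero,
      zero_add]
    linarith
  have hMb : ∀ v : Fin 3 × (n ⊕ n) → ℝ,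
      (MM *ᵥ v) ⬝ᵥ (MM *ᵥ v) ≤ (3 / 2 : ℝ) ^ 2 * ∑ p, s p ^ 2 * v p ^ 2 := by
    intro v
    have eb := vertex_sum ha' hc' hTb fun i => v (1, i)
    have ec := vertex_sum hb' ha' hTc fun i => v (2, i)
    have ea := vertex_sum hc' hb' hTa fun i => v (0, i)
    rw [← hAh, ← hBh] at eb
    rw [← hBh, ← hCh] at ec
    rw [← hCh, ← hAh] at ea
    have d0 := dot_sq_expand (Ah *ᵥ fun i => v (1, i)) (Chᵀ *ᵥ fun i => v (2, i))
    have d1 := dot_sq_expand (Ahᵀ *ᵥ fun i => v (0, i)) (Bh *ᵥ fun i => v (2, i))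
    have d2 := dot_sq_expand (Ch *ᵥ fun i => v (0, i)) (Bhᵀ *ᵥ fun i => v (1, i))
    have hS : ∀ (t : n ⊕ n → ℝ) (u : n ⊕ n → ℝ), 0 ≤ ∑ i, t i ^ 2 * u i ^ 2 :=
      fun t u => Finset.sum_nonneg fun i _ => by positivity
    have es : ∑ p, s p ^ 2 * v p ^ 2 = ∑ i, sa i ^ 2 * v (0, i) ^ 2
        + ∑ i, sb i ^ 2 * v (1, i) ^ 2 + ∑ i, sc i ^ 2 * v (2, i) ^ 2 := by
      rw [Fintype.sum_prod_type, Fin.sum_univ_three]
      simp only [s0, s1, s2]
    rw [hsplit, hMM, hmv, hmv, hmv, es]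
    simp only [m00, m01, m02, m10, m11, m12, m20, m21, m22, Matrix.zero_mulVec, add_zero,
      zero_add]
    linarith [hS sa fun i => v (0, i), hS sb fun i => v (1, i), hS sc fun i => v (2, i)]
  have htri := trilinear hsnn hZsym hZcontr hMsym (by norm_num : (0 : ℝ) < 3 / 2) hMb
  have hq : qf ZZ s = qf za sa + qf zb sb + qf zc sc := by
    simp only [qf]
    simp only [Fintype.sum_prod_type, Fin.sum_univ_three, hZZ, Matrix.comp_apply, s0, s1, s2,
      z00, z01, z02, z10, z11, z12, z20, z21, z22, Matrix.zero_apply, ne_eq, zero_pow,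
      OfNat.ofNat_ne_zero, not_false_eq_true, zero_mul, Finset.sum_const_zero, add_zero, zero_add]
  have htr : trace (ZZ * MM * (ZZ * MM) * (ZZ * MM))
      = 6 * trace (Z * A * (Z * B) * (Z * C)) := by
    rw [hZZ, hMM, ← hmul, ← hmul, ← hmul, hZk, hMk,
      six_cycles za zb zc Ah Bh Ch (conj_sym Oa) (conj_sym Ob) (conj_sym Oc)]
    congr 1
    have q1 : za * Ah = Oaᵀ * (Z * A) * Ob := by
      calc za * Ah = Oaᵀ * Z * (Oa * Oaᵀ) * A * Ob := by
            simp only [hza, hAh, Matrix.mul_assoc]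
        _ = _ := by rw [ha', Matrix.mul_one]; simp only [Matrix.mul_assoc]
    have q2 : zb * Bh = Obᵀ * (Z * B) * Oc := by
      calc zb * Bh = Obᵀ * Z * (Ob * Obᵀ) * B * Oc := by
            simp only [hzb, hBh, Matrix.mul_assoc]
        _ = _ := by rw [hb', Matrix.mul_one]; simp only [Matrix.mul_assoc]
    have q3 : zc * Ch = Ocᵀ * (Z * C) * Oa := by
      calc zc * Ch = Ocᵀ * Z * (Oc * Ocᵀ) * C * Oa := by
            simp only [hzc, hCh, Matrix.mul_assoc]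
        _ = _ := by rw [hc', Matrix.mul_one]; simp only [Matrix.mul_assoc]
    rw [q1, q2, q3]
    calc trace (Oaᵀ * (Z * A) * Ob * (Obᵀ * (Z * B) * Oc) * (Ocᵀ * (Z * C) * Oa))
        = trace (Oaᵀ * ((Z * A) * (Ob * Obᵀ) * (Z * B) * (Oc * Ocᵀ) * (Z * C) * Oa)) := by
          simp only [Matrix.mul_assoc]
      _ = trace ((Z * A) * (Z * B) * (Z * C) * (Oa * Oaᵀ)) := by
          rw [hb', hc', Matrix.mul_one, Matrix.mul_one, trace_mul_comm]
          simp only [Matrix.mul_assoc]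
      _ = _ := by rw [ha', Matrix.mul_one]
  rw [htr, hq, abs_mul, abs_of_pos (by norm_num : (0 : ℝ) < 6), hsgn] at htri
  simp only [psi]
  linarith

end Vale.Agent.P075
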