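import Mathlib
import Vale.Agent.P075.Node

/-!
# Telescoping over dyadic scales for sampled data
-/

open Matrix Finset
open scoped BigOperators

namespace Vale.Agent.P075

/-- The `N × N` block of sampled values with block indices `a`, `b`. -/
def blk (f : ℕ → ℕ → ℝ) (N a b : ℕ) : Matrix (Fin N) (Fin N) ℝ :=
  Matrix.of fun i j => f (N * a + i) (N * b + j)

/-- Sum of normalised triangle traces at scale `j`. -/
noncomputable def phiScale (f g h : ℕ → ℕ → ℝ) (L j : ℕ) : ℝ :=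
  (∑ a ∈ range (2 ^ (L - j)), ∑ b ∈ range (2 ^ (L - j)),
    trace (blk f (2 ^ j) a b * blk g (2 ^ j) b (a ^^^ b) * blk h (2 ^ j) (a ^^^ b) a)) / 2 ^ j

/-- Sum of normalised vertex energies at scale `j`. -/
noncomputable def psiScale (f g h : ℕ → ℕ → ℝ) (L j : ℕ) : ℝ :=
  (∑ a ∈ range (2 ^ (L - j)), ∑ b ∈ range (2 ^ (L - j)),
    psi (blk f (2 ^ j) a b) (blk g (2 ^ j) b (a ^^^ b)) (blk h (2 ^ j) (a ^^^ b) a)) / 2 ^ j

theorem psiScale_nonneg (f g h : ℕ → ℕ → ℝ) (L j : ℕ) : 0 ≤ psiScale f g h L j :=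
  div_nonneg (sum_nonneg fun _ _ => sum_nonneg fun _ _ => psi_nonneg _ _ _) (by positivity)

theorem sum_range_double (G : ℕ → ℝ) (M : ℕ) :
    ∑ a ∈ range (2 * M), G a = ∑ a ∈ range M, (G (2 * a) + G (2 * a + 1)) := by
  induction M with
  | zero => simp
  | succ M ih =>
    rw [show 2 * (M + 1) = 2 * M + 1 + 1 by ring, sum_range_succ, sum_range_succ, ih,
      sum_range_succ _ M, add_assoc]

theorem xor_double (a b : ℕ) :
    (2 * a) ^^^ (2 * b) = 2 * (a ^^^ b) ∧ (2 * a) ^^^ (2 * b + 1) = 2 * (a ^^^ b) + 1 ∧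
    (2 * a + 1) ^^^ (2 * b) = 2 * (a ^^^ b) + 1 ∧ (2 * a + 1) ^^^ (2 * b + 1) = 2 * (a ^^^ b) := by
  refine ⟨?_, ?_, ?_, ?_⟩ <;> apply Nat.eq_of_testBit_eq <;> intro i <;>
    simp only [Nat.testBit_xor] <;> cases i <;>
    simp [Nat.testBit_zero, Nat.testBit_succ, Nat.mul_add_div]

/-- Two halves make a doubled index type. -/
def dblEquiv (N : ℕ) : Fin N ⊕ Fin N ≃ Fin (2 * N) :=
  finSumFinEquiv.trans (finCongr (two_mul N).symm)

theorem blk_double (f : ℕ → ℕ → ℝ) (N a b : ℕ) :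
    (blk f (2 * N) a b).submatrix (dblEquiv N) (dblEquiv N)
      = fromBlocks (blk f N (2 * a) (2 * b)) (blk f N (2 * a) (2 * b + 1))
          (blk f N (2 * a + 1) (2 * b)) (blk f N (2 * a + 1) (2 * b + 1)) := by
  ext i j
  rcases i with i | i <;> rcases j with j | j <;>
    simp [blk, dblEquiv] <;> congr 1 <;> ring

theorem trace_reindex {m n : Type*} [Fintype m] [Fintype n] (e : m ≃ n) (A B C : Matrix n n ℝ) :
    trace (A.submatrix e e * B.submatrix e e * C.submatrix e e) = trace (A * B * C) := by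
  rw [submatrix_mul_equiv, submatrix_mul_equiv, trace, trace]
  exact Equiv.sum_comp e fun i => (A * B * C) i i

theorem psi_reindex {m n : Type*} [Fintype m] [Fintype n] [DecidableEq m] [DecidableEq n]
    (e : m ≃ n) (A B C : Matrix n n ℝ) :
    psi (A.submatrix e e) (B.submatrix e e) (C.submatrix e e) = psi A B C := by
  have h : ∀ X Y : Matrix n n ℝ,
      energy (fromRows (X.submatrix e e) (Y.submatrix e e)ᵀ) = energy (fromRows X Yᵀ) := by
    intro X Y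
    rw [← energy_submatrix (fromRows X Yᵀ) (Equiv.sumCongr e e) e]
    congr 1
    ext i j
    rcases i with i | i <;> simp
  simp only [psi, h]

theorem blk_node (f g h : ℕ → ℕ → ℝ) (N a b : ℕ) :
    |2 * ((trace (blk f N (2 * a) (2 * b) * blk g N (2 * b) ((2 * a) ^^^ (2 * b))
              * blk h N ((2 * a) ^^^ (2 * b)) (2 * a))
          + trace (blk f N (2 * a) (2 * b + 1) * blk g N (2 * b + 1) ((2 * a) ^^^ (2 * b + 1))
              * blk h N ((2 * a) ^^^ (2 * b + 1)) (2 * a)))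
          + (trace (blk f N (2 * a + 1) (2 * b) * blk g N (2 * b) ((2 * a + 1) ^^^ (2 * b))
              * blk h N ((2 * a + 1) ^^^ (2 * b)) (2 * a + 1))
          + trace (blk f N (2 * a + 1) (2 * b + 1) * blk g N (2 * b + 1) ((2 * a + 1) ^^^ (2 * b + 1))
              * blk h N ((2 * a + 1) ^^^ (2 * b + 1)) (2 * a + 1))))
        - trace (blk f (2 * N) a b * blk g (2 * N) b (a ^^^ b) * blk h (2 * N) (a ^^^ b) a)|
      ≤ 6 * (2 * ((psi (blk f N (2 * a) (2 * b)) (blk g N (2 * b) ((2 * a) ^^^ (2 * b)))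
              (blk h N ((2 * a) ^^^ (2 * b)) (2 * a))
          + psi (blk f N (2 * a) (2 * b + 1)) (blk g N (2 * b + 1) ((2 * a) ^^^ (2 * b + 1)))
              (blk h N ((2 * a) ^^^ (2 * b + 1)) (2 * a)))
          + (psi (blk f N (2 * a + 1) (2 * b)) (blk g N (2 * b) ((2 * a + 1) ^^^ (2 * b)))
              (blk h N ((2 * a + 1) ^^^ (2 * b)) (2 * a + 1))
          + psi (blk f N (2 * a + 1) (2 * b + 1))
              (blk g N (2 * b + 1) ((2 * a + 1) ^^^ (2 * b + 1)))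
              (blk h N ((2 * a + 1) ^^^ (2 * b + 1)) (2 * a + 1))))
        - psi (blk f (2 * N) a b) (blk g (2 * N) b (a ^^^ b)) (blk h (2 * N) (a ^^^ b) a)) := by
  obtain ⟨e0, e1, e2, e3⟩ := xor_double a b
  rw [e0, e1, e2, e3]
  set c := a ^^^ b
  have H := node (blk f N (2 * a) (2 * b)) (blk f N (2 * a) (2 * b + 1))
    (blk f N (2 * a + 1) (2 * b)) (blk f N (2 * a + 1) (2 * b + 1))
    (blk g N (2 * b) (2 * c)) (blk g N (2 * b) (2 * c + 1))
    (blk g N (2 * b + 1) (2 * c)) (blk g N (2 * b + 1) (2 * c + 1))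
    (blk h N (2 * c) (2 * a)) (blk h N (2 * c) (2 * a + 1))
    (blk h N (2 * c + 1) (2 * a)) (blk h N (2 * c + 1) (2 * a + 1))
  rw [← blk_double, ← blk_double, ← blk_double, trace_reindex, psi_reindex] at H
  simp only [← add_assoc] at H ⊢
  exact H

theorem disc_step (f g h : ℕ → ℕ → ℝ) {L j : ℕ} (hj : j < L) :
    |phiScale f g h L j - phiScale f g h L (j + 1)|
      ≤ 6 * (psiScale f g h L j - psiScale f g h L (j + 1)) := by
  have hM : 2 ^ (L - j) = 2 * 2 ^ (L - (j + 1)) := by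
    rw [← pow_succ']; congr 1; omega
  simp only [phiScale, psiScale, pow_succ' (2 : ℝ) j, hM,
    sum_range_double, sum_add_distrib.symm]
  have h2 : (0 : ℝ) < 2 * 2 ^ j := by positivity
  have key : ∀ X Y : ℝ, X / 2 ^ j - Y / (2 * 2 ^ j) = (2 * X - Y) / (2 * 2 ^ j) := fun X Y => by
    field_simp
  rw [key, key, abs_div, abs_of_pos h2, ← mul_div_assoc]
  refine div_le_div_of_nonneg_right ?_ h2.le
  rw [mul_sum, ← sum_sub_distrib, mul_sum, ← sum_sub_distrib, mul_sum]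
  refine (abs_sum_le_sum_abs _ _).trans (sum_le_sum fun a _ => ?_)
  rw [mul_sum, ← sum_sub_distrib, mul_sum, ← sum_sub_distrib, mul_sum]
  refine (abs_sum_le_sum_abs _ _).trans (sum_le_sum fun b _ => ?_)
  rw [pow_succ' (2 : ℕ) j]
  refine le_trans (le_of_eq ?_) ((blk_node f g h (2 ^ j) a b).trans (le_of_eq ?_))
  · congr 1
  · ring

theorem energy_pair_le {A B : Matrix (Fin 1) (Fin 1) ℝ} :
    energy (fromRows A Bᵀ) ≤ 2 * (|A 0 0| ^ 3 + |B 0 0| ^ 3) := by
  obtain ⟨O, σ, hO, hO2, hσ, hT, hE⟩ := energy_dec (fromRows A Bᵀ)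
  have h1 := congrFun (congrFun hT 0) 0
  have h2 := congrFun (congrFun hO 0) 0
  simp [Matrix.mul_apply, Fintype.sum_sum_type] at h1 h2
  rw [hE, Fin.sum_univ_one]
  have hsq : σ 0 ^ 2 = |A 0 0| ^ 2 + |B 0 0| ^ 2 := by
    rw [sq_abs, sq_abs, ← h1]
    linear_combination (A 0 0 ^ 2 + B 0 0 ^ 2) * h2
  have y : ∀ u : ℝ, 0 ≤ u → u ^ 2 * σ 0 ≤ 4 / 3 * u ^ 3 + 1 / 12 * σ 0 ^ 3 := by
    intro u hu
    have := young_sq_mul hu (div_nonneg (hσ 0) (by norm_num : (0 : ℝ) ≤ 2))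
    nlinarith
  have := y _ (abs_nonneg (A 0 0))
  have := y _ (abs_nonneg (B 0 0))
  have e : σ 0 ^ 3 = |A 0 0| ^ 2 * σ 0 + |B 0 0| ^ 2 * σ 0 := by rw [← add_mul, ← hsq]; ring
  nlinarith [pow_nonneg (abs_nonneg (A 0 0)) 3, pow_nonneg (abs_nonneg (B 0 0)) 3]

theorem psi_one_le (f g h : ℕ → ℕ → ℝ) {N : ℕ} (hN : N = 1) (a b c : ℕ) :
    psi (blk f N a b) (blk g N b c) (blk h N c a)
      ≤ 4 * (|f a b| ^ 3 + |g b c| ^ 3 + |h c a| ^ 3) := by
  subst hN
  have h1 := energy_pair_le (A := blk f 1 a b) (B := blk g 1 b c)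
  have h2 := energy_pair_le (A := blk g 1 b c) (B := blk h 1 c a)
  have h3 := energy_pair_le (A := blk h 1 c a) (B := blk f 1 a b)
  have e : ∀ (u : ℕ → ℕ → ℝ) (x y : ℕ), blk u 1 x y 0 0 = u x y := fun u x y => by simp [blk]
  simp only [e] at h1 h2 h3
  simp only [psi]
  linarith

/-- Total cube mass of sampled data. -/
def cubeSum (f : ℕ → ℕ → ℝ) (M : ℕ) : ℝ :=
  ∑ a ∈ range M, ∑ b ∈ range M, |f a b| ^ 3

theorem sum_xor_left (L b : ℕ) (hb : b < 2 ^ L) (G : ℕ → ℝ) :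
    ∑ a ∈ range (2 ^ L), G (a ^^^ b) = ∑ a ∈ range (2 ^ L), G a := by
  refine sum_nbij' (fun a => a ^^^ b) (fun a => a ^^^ b) ?_ ?_ ?_ ?_ ?_
  · intro a ha; simp only [mem_range] at ha ⊢
    exact Nat.xor_lt_two_pow ha hb
  · intro a ha; simp only [mem_range] at ha ⊢
    exact Nat.xor_lt_two_pow ha hb
  · intro a _; simp
  · intro a _; simp
  · intro a _; rfl

theorem psiScale_zero_le (f g h : ℕ → ℕ → ℝ) (L : ℕ) :
    psiScale f g h L 0
      ≤ 4 * (cubeSum f (2 ^ L) + cubeSum g (2 ^ L) + cubeSum h (2 ^ L)) := by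
  have e1 : ∑ a ∈ range (2 ^ L), ∑ b ∈ range (2 ^ L), |g b (a ^^^ b)| ^ 3
      = cubeSum g (2 ^ L) := by
    rw [sum_comm]
    exact sum_congr rfl fun b hb => sum_xor_left L b (mem_range.1 hb) fun x => |g b x| ^ 3
  have e2 : ∑ a ∈ range (2 ^ L), ∑ b ∈ range (2 ^ L), |h (a ^^^ b) a| ^ 3
      = cubeSum h (2 ^ L) := by
    rw [cubeSum, sum_comm (f := fun a b => |h a b| ^ 3)]
    refine sum_congr rfl fun a ha => ?_
    simp only [Nat.xor_comm a]
    exact sum_xor_left L a (mem_range.1 ha) fun x => |h x a| ^ 3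
  have hb : psiScale f g h L 0 ≤ ∑ a ∈ range (2 ^ L), ∑ b ∈ range (2 ^ L),
      4 * (|f a b| ^ 3 + |g b (a ^^^ b)| ^ 3 + |h (a ^^^ b) a| ^ 3) := by
    simp only [psiScale, Nat.sub_zero]
    rw [pow_zero (2 : ℝ), div_one]
    exact sum_le_sum fun a _ => sum_le_sum fun b _ => psi_one_le f g h (pow_zero 2) a b _
  refine hb.trans_eq ?_
  simp only [← mul_sum, sum_add_distrib]
  rw [e1, e2]
  rfl

theorem disc_main (f g h : ℕ → ℕ → ℝ) (L : ℕ) :
    ∑ j ∈ range L, |phiScale f g h L j - phiScale f g h L (j + 1)|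
      ≤ 24 * (cubeSum f (2 ^ L) + cubeSum g (2 ^ L) + cubeSum h (2 ^ L)) := by
  refine (sum_le_sum fun j hj => disc_step f g h (mem_range.1 hj)).trans ?_
  rw [← mul_sum, sum_range_sub' (psiScale f g h L)]
  linarith [psiScale_nonneg f g h L L, psiScale_zero_le f g h L]

end Vale.Agent.P075
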