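import Mathlib
import Vale.Agent.P075.Defs
import Vale.Agent.P075.Discrete

/-!
# From sampled data to measurable functions
-/

noncomputable section

open MeasureTheory Finset
open scoped BigOperators

namespace Vale.Agent.P075

/-- Measurable and bounded. -/
def Bdd {α : Type*} [MeasurableSpace α] (H : α → ℝ) : Prop :=
  Measurable H ∧ ∃ B, ∀ x, |H x| ≤ B

theorem Bdd.const {α : Type*} [MeasurableSpace α] (c : ℝ) : Bdd (fun _ : α => c) :=
  ⟨measurable_const, |c|, fun _ => le_rfl⟩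

theorem Bdd.comp {α β : Type*} [MeasurableSpace α] [MeasurableSpace β] {H : β → ℝ} (hH : Bdd H)
    {f : α → β} (hf : Measurable f) : Bdd (fun x => H (f x)) :=
  ⟨hH.1.comp hf, hH.2.choose, fun x => hH.2.choose_spec (f x)⟩

theorem Bdd.add {α : Type*} [MeasurableSpace α] {H K : α → ℝ} (hH : Bdd H) (hK : Bdd K) :
    Bdd (fun x => H x + K x) := by
  obtain ⟨hm, B, hB⟩ := hH
  obtain ⟨km, B', hB'⟩ := hK
  exact ⟨hm.add km, B + B', fun x => (abs_add_le _ _).trans (add_le_add (hB x) (hB' x))⟩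

theorem Bdd.mul {α : Type*} [MeasurableSpace α] {H K : α → ℝ} (hH : Bdd H) (hK : Bdd K) :
    Bdd (fun x => H x * K x) := by
  obtain ⟨hm, B, hB⟩ := hH
  obtain ⟨km, B', hB'⟩ := hK
  refine ⟨hm.mul km, B * B', fun x => ?_⟩
  rw [abs_mul]
  exact mul_le_mul (hB x) (hB' x) (abs_nonneg _) ((abs_nonneg _).trans (hB x))

theorem Bdd.neg {α : Type*} [MeasurableSpace α] {H : α → ℝ} (hH : Bdd H) :
    Bdd (fun x => -H x) := by
  simpa using (Bdd.const (-1)).mul hH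

theorem Bdd.sub {α : Type*} [MeasurableSpace α] {H K : α → ℝ} (hH : Bdd H) (hK : Bdd K) :
    Bdd (fun x => H x - K x) := by
  simpa [sub_eq_add_neg] using hH.add hK.neg

theorem Bdd.abs {α : Type*} [MeasurableSpace α] {H : α → ℝ} (hH : Bdd H) :
    Bdd (fun x => |H x|) := by
  obtain ⟨hm, B, hB⟩ := hH
  exact ⟨measurable_norm.comp hm, B, fun x => by simpa using hB x⟩

theorem Bdd.cube_abs {α : Type*} [MeasurableSpace α] {H : α → ℝ} (hH : Bdd H) :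
    Bdd (fun x => |H x| ^ 3) := by
  simpa [pow_succ] using (hH.abs.mul hH.abs).mul hH.abs

theorem Bdd.sum {α ι : Type*} [MeasurableSpace α] {s : Finset ι} {H : ι → α → ℝ}
    (h : ∀ i ∈ s, Bdd (H i)) : Bdd (fun x => ∑ i ∈ s, H i x) := by
  classical
  induction s using Finset.induction_on with
  | empty => simpa using Bdd.const (α := α) 0
  | insert a s ha ih =>
    simp only [Finset.sum_insert ha]
    exact (h a (Finset.mem_insert_self a s)).add (ih fun i hi => h i (Finset.mem_insert_of_mem hi))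

/-- The indicator of a set, valued in `ℝ`. -/
def ind (s : Set ℝ) (x : ℝ) : ℝ := s.indicator (fun _ => (1 : ℝ)) x

/-- `[ℓ n, ℓ (n+1))`. -/
def seg (ℓ : ℝ) (n : ℕ) : Set ℝ := Set.Ico (ℓ * n) (ℓ * (n + 1))

/-- Product of three indicators on `ℝ × ℝ × ℝ`. -/
def ind3 (a b c : Set ℝ) (p : ℝ × ℝ × ℝ) : ℝ := ind a p.1 * ind b p.2.1 * ind c p.2.2

theorem bdd_ind {a : Set ℝ} (ha : MeasurableSet a) : Bdd (ind a) := by
  refine ⟨measurable_const.indicator ha, 1, fun x => ?_⟩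
  by_cases h : x ∈ a <;> simp [ind, h]

theorem ind_nonneg (a : Set ℝ) (x : ℝ) : 0 ≤ ind a x :=
  Set.indicator_nonneg (fun _ _ => zero_le_one) x

theorem ind3_nonneg (a b c : Set ℝ) (p : ℝ × ℝ × ℝ) : 0 ≤ ind3 a b c p :=
  mul_nonneg (mul_nonneg (ind_nonneg _ _) (ind_nonneg _ _)) (ind_nonneg _ _)

theorem integrable_ind3 {H : ℝ × ℝ × ℝ → ℝ} (hH : Bdd H) (a a' b b' c c' : ℝ) :
    Integrable (fun p => H p * ind3 (Set.Ico a a') (Set.Ico b b') (Set.Ico c c') p) := by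
  obtain ⟨hm, B, hB⟩ := hH
  have hs : MeasurableSet (Set.Ico a a' ×ˢ Set.Ico b b' ×ˢ Set.Ico c c') :=
    measurableSet_Ico.prod (measurableSet_Ico.prod measurableSet_Ico)
  have hfin : volume (Set.Ico a a' ×ˢ Set.Ico b b' ×ˢ Set.Ico c c') ≠ ⊤ := by
    simp [Measure.volume_eq_prod, Measure.prod_prod, ENNReal.mul_eq_top]
  have : Integrable ((Set.Ico a a' ×ˢ Set.Ico b b' ×ˢ Set.Ico c c').indicator H) := by
    refine (integrable_indicator_iff hs).2 ?_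
    exact IntegrableOn.of_bound hfin.lt_top hm.aestronglyMeasurable B
      (Filter.Eventually.of_forall fun x => by simpa using hB x)
  convert this using 1
  funext p
  simp only [ind3, ind, Set.indicator_apply, Set.mem_prod]
  split_ifs <;> simp_all

theorem integrable_ind2 {H : ℝ × ℝ → ℝ} (hH : Bdd H) (a a' b b' : ℝ) :
    Integrable (fun p : ℝ × ℝ => H p * (ind (Set.Ico a a') p.1 * ind (Set.Ico b b') p.2)) := by
  obtain ⟨hm, B, hB⟩ := hH
  have hs : MeasurableSet (Set.Ico a a' ×ˢ Set.Ico b b') :=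
    measurableSet_Ico.prod measurableSet_Ico
  have hfin : volume (Set.Ico a a' ×ˢ Set.Ico b b') ≠ ⊤ := by
    simp [Measure.volume_eq_prod, Measure.prod_prod, ENNReal.mul_eq_top]
  have : Integrable ((Set.Ico a a' ×ˢ Set.Ico b b').indicator H) := by
    refine (integrable_indicator_iff hs).2 ?_
    exact IntegrableOn.of_bound hfin.lt_top hm.aestronglyMeasurable B
      (Filter.Eventually.of_forall fun x => by simpa using hB x)
  convert this using 1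
  funext p
  simp only [ind, Set.indicator_apply, Set.mem_prod]
  split_ifs <;> simp_all

theorem ind_Ico_add {a b c : ℝ} (h1 : a ≤ b) (h2 : b ≤ c) (x : ℝ) :
    ind (Set.Ico a b) x + ind (Set.Ico b c) x = ind (Set.Ico a c) x := by
  simp only [ind, Set.indicator_apply, Set.mem_Ico]
  split_ifs <;> grind

theorem ind_seg_sum {ℓ : ℝ} (hℓ : 0 ≤ ℓ) (N n : ℕ) (x : ℝ) :
    ind (seg (ℓ * N) n) x = ∑ i ∈ range N, ind (seg ℓ (N * n + i)) x := by
  suffices h : ∀ m : ℕ, ∑ i ∈ range m, ind (seg ℓ (N * n + i)) x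
      = ind (Set.Ico (ℓ * (N * n : ℕ)) (ℓ * (N * n + m : ℕ))) x by
    rw [h N, seg]
    congr 2 <;> push_cast <;> ring
  intro m
  induction m with
  | zero => simp [ind]
  | succ m ih =>
    rw [sum_range_succ, ih]
    have e : seg ℓ (N * n + m) = Set.Ico (ℓ * (N * n + m : ℕ)) (ℓ * (N * n + (m + 1) : ℕ)) := by
      simp only [seg]; push_cast; ring_nf
    rw [e, ind_Ico_add] <;> gcongr <;> omega

theorem ind_seg_shift (ℓ : ℝ) (n : ℕ) (x : ℝ) :
    ind (seg ℓ n) (x + ℓ * n) = ind (seg ℓ 0) x := by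
  simp only [ind, seg, Set.indicator_apply, Set.mem_Ico, Nat.cast_zero]
  split_ifs <;> grind

/-- Product of the three functions at a point of `ℝ³`. -/
def triProd (F0 F1 F2 : ℝ × ℝ → ℝ) (p : ℝ × ℝ × ℝ) : ℝ :=
  F0 (p.1, p.2.1) * F1 (p.2.1, p.2.2) * F2 (p.2.2, p.1)

theorem bdd_triProd {F0 F1 F2 : ℝ × ℝ → ℝ} (h0 : Bdd F0) (h1 : Bdd F1) (h2 : Bdd F2) :
    Bdd (triProd F0 F1 F2) :=
  ((h0.comp (by fun_prop)).mul (h1.comp (by fun_prop))).mul (h2.comp (by fun_prop))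

/-- Values of `F` on the grid of mesh `ℓ` with offsets `u`, `v`. -/
def sample (F : ℝ × ℝ → ℝ) (ℓ u v : ℝ) (a b : ℕ) : ℝ := F (u + ℓ * a, v + ℓ * b)

/-- Trace of one sampled triangle of blocks. -/
def sampleTrace (F0 F1 F2 : ℝ × ℝ → ℝ) (ℓ : ℝ) (N a b c : ℕ) (t : ℝ × ℝ × ℝ) : ℝ :=
  Matrix.trace (blk (sample F0 ℓ t.1 t.2.1) N a b * blk (sample F1 ℓ t.2.1 t.2.2) N b c
    * blk (sample F2 ℓ t.2.2 t.1) N c a)

theorem sampleTrace_eq (F0 F1 F2 : ℝ × ℝ → ℝ) (ℓ : ℝ) (N a b c : ℕ) (t : ℝ × ℝ × ℝ) :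
    sampleTrace F0 F1 F2 ℓ N a b c t = ∑ i ∈ range N, ∑ j ∈ range N, ∑ l ∈ range N,
      triProd F0 F1 F2 (t + (ℓ * (N * a + i : ℕ), ℓ * (N * b + j : ℕ), ℓ * (N * c + l : ℕ))) := by
  simp only [sampleTrace, Matrix.trace, Matrix.diag_apply, Matrix.mul_apply, blk, sample,
    Matrix.of_apply, sum_mul, triProd, Prod.fst_add, Prod.snd_add]
  rw [← Fin.sum_univ_eq_sum_range]
  refine sum_congr rfl fun i _ => ?_
  rw [sum_comm, ← Fin.sum_univ_eq_sum_range]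
  refine sum_congr rfl fun j _ => ?_
  rw [← Fin.sum_univ_eq_sum_range]

theorem bdd_sampleTrace {F0 F1 F2 : ℝ × ℝ → ℝ} (h0 : Bdd F0) (h1 : Bdd F1) (h2 : Bdd F2)
    (ℓ : ℝ) (N a b c : ℕ) : Bdd (sampleTrace F0 F1 F2 ℓ N a b c) := by
  rw [show sampleTrace F0 F1 F2 ℓ N a b c = fun t => ∑ i ∈ range N, ∑ j ∈ range N, ∑ l ∈ range N,
    triProd F0 F1 F2 (t + (ℓ * (N * a + i : ℕ), ℓ * (N * b + j : ℕ), ℓ * (N * c + l : ℕ)))
    from funext (sampleTrace_eq F0 F1 F2 ℓ N a b c)]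
  exact Bdd.sum fun i _ => Bdd.sum fun j _ => Bdd.sum fun l _ =>
    (bdd_triProd h0 h1 h2).comp (by fun_prop)

/-- The cube of offsets. -/
def cube (ℓ : ℝ) : ℝ × ℝ × ℝ → ℝ := ind3 (seg ℓ 0) (seg ℓ 0) (seg ℓ 0)

theorem cell_integral (H : ℝ × ℝ × ℝ → ℝ) (ℓ : ℝ) (a b c : ℕ) :
    ∫ p, H p * ind3 (seg ℓ a) (seg ℓ b) (seg ℓ c) p
      = ∫ t, H (t + (ℓ * a, ℓ * b, ℓ * c)) * cube ℓ t := by
  have : (volume : Measure (ℝ × ℝ)).IsAddLeftInvariant := by
    rw [Measure.volume_eq_prod]; infer_instance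
  have : (volume : Measure (ℝ × ℝ × ℝ)).IsAddLeftInvariant := by
    rw [Measure.volume_eq_prod]; infer_instance
  rw [← integral_add_right_eq_self (fun p => H p * ind3 (seg ℓ a) (seg ℓ b) (seg ℓ c) p)
    (ℓ * a, ℓ * b, ℓ * c)]
  simp only [cube, ind3, Prod.fst_add, Prod.snd_add, ind_seg_shift]

theorem box_integral {F0 F1 F2 : ℝ × ℝ → ℝ} (h0 : Bdd F0) (h1 : Bdd F1) (h2 : Bdd F2)
    {ℓ : ℝ} (hℓ : 0 ≤ ℓ) (N a b c : ℕ) :
    ∫ p, triProd F0 F1 F2 p * ind3 (seg (ℓ * N) a) (seg (ℓ * N) b) (seg (ℓ * N) c) p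
      = ∫ t, sampleTrace F0 F1 F2 ℓ N a b c t * cube ℓ t := by
  have hG := bdd_triProd h0 h1 h2
  have hl : ∀ p, triProd F0 F1 F2 p * ind3 (seg (ℓ * N) a) (seg (ℓ * N) b) (seg (ℓ * N) c) p
      = ∑ i ∈ range N, ∑ j ∈ range N, ∑ l ∈ range N, triProd F0 F1 F2 p *
        ind3 (seg ℓ (N * a + i)) (seg ℓ (N * b + j)) (seg ℓ (N * c + l)) p := by
    intro p
    simp only [ind3, ind_seg_sum hℓ]
    rw [sum_mul_sum, sum_mul, mul_sum]
    refine sum_congr rfl fun i _ => ?_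
    rw [sum_mul, mul_sum]
    refine sum_congr rfl fun j _ => ?_
    rw [mul_sum, mul_sum]
  have hr : ∀ t, sampleTrace F0 F1 F2 ℓ N a b c t * cube ℓ t
      = ∑ i ∈ range N, ∑ j ∈ range N, ∑ l ∈ range N,
        triProd F0 F1 F2 (t + (ℓ * (N * a + i : ℕ), ℓ * (N * b + j : ℕ), ℓ * (N * c + l : ℕ)))
          * cube ℓ t := by
    intro t
    simp only [sampleTrace_eq, sum_mul]
  have il : ∀ i j l : ℕ, Integrable fun p => triProd F0 F1 F2 p *
        ind3 (seg ℓ i) (seg ℓ j) (seg ℓ l) p :=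
    fun i j l => integrable_ind3 hG _ _ _ _ _ _
  have ir : ∀ v : ℝ × ℝ × ℝ, Integrable fun t => triProd F0 F1 F2 (t + v) * cube ℓ t :=
    fun v => integrable_ind3 (hG.comp (by fun_prop)) _ _ _ _ _ _
  simp only [hl, hr]
  rw [integral_finsetSum _ fun i _ => integrable_finsetSum _ fun j _ =>
      integrable_finsetSum _ fun l _ => il _ _ _,
    integral_finsetSum _ fun i _ => integrable_finsetSum _ fun j _ =>
      integrable_finsetSum _ fun l _ => ir _]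
  refine sum_congr rfl fun i _ => ?_
  rw [integral_finsetSum _ fun j _ => integrable_finsetSum _ fun l _ => il _ _ _,
    integral_finsetSum _ fun j _ => integrable_finsetSum _ fun l _ => ir _]
  refine sum_congr rfl fun j _ => ?_
  rw [integral_finsetSum _ fun l _ => il _ _ _, integral_finsetSum _ fun l _ => ir _]
  exact sum_congr rfl fun l _ => cell_integral _ _ _ _ _

theorem iterated_eq {H : ℝ × ℝ × ℝ → ℝ} (hH : Bdd H) (a a' b b' c c' : ℝ) :
    ∫ x0 in Set.Ico a a', ∫ x1 in Set.Ico b b', ∫ x2 in Set.Ico c c', H (x0, x1, x2)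
      = ∫ p, H p * ind3 (Set.Ico a a') (Set.Ico b b') (Set.Ico c c') p := by
  have hInt := integrable_ind3 hH a a' b b' c c'
  rw [Measure.volume_eq_prod] at hInt ⊢
  rw [integral_prod _ hInt, ← integral_indicator measurableSet_Ico]
  congr 1
  funext x0
  have h2 : Integrable (fun q : ℝ × ℝ => H (x0, q) *
      (ind (Set.Ico b b') q.1 * ind (Set.Ico c c') q.2)) :=
    integrable_ind2 (hH.comp (by fun_prop)) b b' c c'
  rw [Measure.volume_eq_prod] at h2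
  have e : ∀ q : ℝ × ℝ, H (x0, q) * ind3 (Set.Ico a a') (Set.Ico b b') (Set.Ico c c') (x0, q)
      = ind (Set.Ico a a') x0 * (H (x0, q) *
        (ind (Set.Ico b b') q.1 * ind (Set.Ico c c') q.2)) := fun q => by
    simp only [ind3]; ring
  simp only [e]
  rw [integral_const_mul, Measure.volume_eq_prod, integral_prod _ h2]
  by_cases hx : x0 ∈ Set.Ico a a'
  · rw [Set.indicator_of_mem hx, ← integral_indicator measurableSet_Ico]
    simp only [ind, Set.indicator_of_mem hx, one_mul]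
    congr 1
    funext x1
    by_cases h1 : x1 ∈ Set.Ico b b'
    · rw [Set.indicator_of_mem h1, ← integral_indicator measurableSet_Ico]
      simp only [Set.indicator_of_mem h1, one_mul]
      congr 1
      funext x2
      by_cases h2 : x2 ∈ Set.Ico c c' <;> simp [h2]
    · simp [h1]
  · simp [ind, hx]

theorem haar_mul_ind (k : ℤ) (n : ℕ) (H : ℝ) (hH : (2 : ℝ) ^ (k - 1) = H) (x : ℝ) :
    haar k n x * ind (seg (H * (2 : ℕ)) n) x
      = ind (seg H (2 * n)) x - ind (seg H (2 * n + 1)) x := by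
  have hpos : 0 ≤ H := hH ▸ (zpow_nonneg (by norm_num) _)
  rw [ind_seg_sum hpos, sum_range_succ, sum_range_one, Nat.add_zero]
  simp only [haar, dyInterval, hH, ind, seg, Set.indicator_apply, Set.mem_Ico]
  push_cast
  split_ifs <;> grind

theorem bdd_haar (k : ℤ) (n : ℕ) : Bdd (haar k n) := by
  have h : ∀ m : ℕ, Bdd (ind (dyInterval (k - 1) m)) := fun m => bdd_ind measurableSet_Ico
  exact (h _).sub (h _)

theorem int_comb {α : Type*} [MeasurableSpace α] {μ : Measure α} {f1 f2 f3 f4 f5 : α → ℝ}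
    (i1 : Integrable f1 μ) (i2 : Integrable f2 μ) (i3 : Integrable f3 μ) (i4 : Integrable f4 μ)
    (i5 : Integrable f5 μ) (c d : ℝ) :
    ∫ x, c * (f1 x + f2 x + (f3 x + f4 x)) - d * f5 x ∂μ
      = c * (∫ x, f1 x ∂μ + ∫ x, f2 x ∂μ + (∫ x, f3 x ∂μ + ∫ x, f4 x ∂μ))
        - d * ∫ x, f5 x ∂μ := by
  have i12 : Integrable (fun x => f1 x + f2 x) μ := i1.add i2
  have i34 : Integrable (fun x => f3 x + f4 x) μ := i3.add i4
  have i14 : Integrable (fun x => f1 x + f2 x + (f3 x + f4 x)) μ := i12.add i34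
  rw [integral_sub (i14.const_mul c) (i5.const_mul d), integral_const_mul, integral_const_mul,
    integral_add i12 i34, integral_add i1 i2, integral_add i3 i4]

/-- The combination of sampled traces attached to one triple. -/
def sampleNode (F0 F1 F2 : ℝ × ℝ → ℝ) (ℓ : ℝ) (j a b : ℕ) (t : ℝ × ℝ × ℝ) : ℝ :=
  (sampleTrace F0 F1 F2 ℓ (2 ^ j) (2 * a) (2 * b) ((2 * a) ^^^ (2 * b)) t
    + sampleTrace F0 F1 F2 ℓ (2 ^ j) (2 * a) (2 * b + 1) ((2 * a) ^^^ (2 * b + 1)) t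
    + (sampleTrace F0 F1 F2 ℓ (2 ^ j) (2 * a + 1) (2 * b) ((2 * a + 1) ^^^ (2 * b)) t
      + sampleTrace F0 F1 F2 ℓ (2 ^ j) (2 * a + 1) (2 * b + 1)
          ((2 * a + 1) ^^^ (2 * b + 1)) t)) / 2 ^ j
    - sampleTrace F0 F1 F2 ℓ (2 * 2 ^ j) a b (a ^^^ b) t / (2 * 2 ^ j)

theorem bdd_sampleNode {F0 F1 F2 : ℝ × ℝ → ℝ} (h0 : Bdd F0) (h1 : Bdd F1) (h2 : Bdd F2)
    (ℓ : ℝ) (j a b : ℕ) : Bdd (sampleNode F0 F1 F2 ℓ j a b) := by
  have h := fun N x y z => bdd_sampleTrace h0 h1 h2 ℓ N x y z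
  have e : sampleNode F0 F1 F2 ℓ j a b = fun t =>
      (1 / 2 ^ j : ℝ) *
        (sampleTrace F0 F1 F2 ℓ (2 ^ j) (2 * a) (2 * b) ((2 * a) ^^^ (2 * b)) t
        + sampleTrace F0 F1 F2 ℓ (2 ^ j) (2 * a) (2 * b + 1) ((2 * a) ^^^ (2 * b + 1)) t
        + (sampleTrace F0 F1 F2 ℓ (2 ^ j) (2 * a + 1) (2 * b) ((2 * a + 1) ^^^ (2 * b)) t
          + sampleTrace F0 F1 F2 ℓ (2 ^ j) (2 * a + 1) (2 * b + 1)
              ((2 * a + 1) ^^^ (2 * b + 1)) t))
        - (1 / (2 * 2 ^ j) : ℝ) * sampleTrace F0 F1 F2 ℓ (2 * 2 ^ j) a b (a ^^^ b) t := by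
    funext t; simp only [sampleNode]; ring
  rw [e]
  exact ((Bdd.const _).mul (((h _ _ _ _).add (h _ _ _ _)).add ((h _ _ _ _).add (h _ _ _ _)))).sub
    ((Bdd.const _).mul (h _ _ _ _))

theorem term_eq {F0 F1 F2 : ℝ × ℝ → ℝ} (h0 : Bdd F0) (h1 : Bdd F1) (h2 : Bdd F2)
    (k0 : ℤ) (j a b : ℕ) :
    term F0 F1 F2 (k0 + (j + 1 : ℕ)) a b (a ^^^ b)
      = ((2 : ℝ) ^ k0)⁻¹ * ∫ t, sampleNode F0 F1 F2 ((2 : ℝ) ^ k0) j a b t * cube ((2 : ℝ) ^ k0) t := by
  set ℓ : ℝ := (2 : ℝ) ^ k0 with hℓdef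
  have hℓ : 0 < ℓ := zpow_pos (by norm_num) _
  set H : ℝ := ℓ * (2 ^ j : ℕ) with hHdef
  set k : ℤ := k0 + (j + 1 : ℕ) with hkdef
  have hk1 : (2 : ℝ) ^ (k - 1) = H := by
    rw [hHdef, hkdef, hℓdef, show k0 + ((j + 1 : ℕ) : ℤ) - 1 = k0 + (j : ℤ) by push_cast; ring,
      zpow_add₀ (by norm_num), zpow_natCast]
    push_cast; ring
  have hk : (2 : ℝ) ^ k = H * (2 : ℕ) := by
    rw [← hk1, zpow_sub₀ (by norm_num : (2 : ℝ) ≠ 0)]
    norm_num
  have hdy : ∀ n : ℕ, dyInterval k n = seg (H * (2 : ℕ)) n := fun n => by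
    simp only [dyInterval, seg, hk]
  have hseg : H * (2 : ℕ) = ℓ * ((2 * 2 ^ j : ℕ) : ℝ) := by
    rw [hHdef]; push_cast; ring
  have hG := bdd_triProd h0 h1 h2
  have hW : Bdd fun p : ℝ × ℝ × ℝ => triProd F0 F1 F2 p *
      (haar k a p.1 * haar k b p.2.1 * haar k (a ^^^ b) p.2.2) :=
    hG.mul ((((bdd_haar k a).comp measurable_fst).mul
      ((bdd_haar k b).comp (by fun_prop))).mul ((bdd_haar k _).comp (by fun_prop)))
  have hterm : term F0 F1 F2 k a b (a ^^^ b) = (2 : ℝ) ^ (-k) *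
      ∫ p, (triProd F0 F1 F2 p * (haar k a p.1 * haar k b p.2.1 * haar k (a ^^^ b) p.2.2)) *
        ind3 (dyInterval k a) (dyInterval k b) (dyInterval k (a ^^^ b)) p := by
    unfold term dyInterval
    rw [← iterated_eq hW]
    rfl
  obtain ⟨e0, e1, e2, e3⟩ := xor_double a b
  have hpt : ∀ p, (triProd F0 F1 F2 p *
        (haar k a p.1 * haar k b p.2.1 * haar k (a ^^^ b) p.2.2)) *
        ind3 (dyInterval k a) (dyInterval k b) (dyInterval k (a ^^^ b)) p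
      = 2 * (triProd F0 F1 F2 p *
            ind3 (seg H (2 * a)) (seg H (2 * b)) (seg H ((2 * a) ^^^ (2 * b))) p
          + triProd F0 F1 F2 p *
            ind3 (seg H (2 * a)) (seg H (2 * b + 1)) (seg H ((2 * a) ^^^ (2 * b + 1))) p
          + (triProd F0 F1 F2 p *
            ind3 (seg H (2 * a + 1)) (seg H (2 * b)) (seg H ((2 * a + 1) ^^^ (2 * b))) p
          + triProd F0 F1 F2 p *
            ind3 (seg H (2 * a + 1)) (seg H (2 * b + 1)) (seg H ((2 * a + 1) ^^^ (2 * b + 1))) p))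
        - triProd F0 F1 F2 p *
            ind3 (seg (H * (2 : ℕ)) a) (seg (H * (2 : ℕ)) b) (seg (H * (2 : ℕ)) (a ^^^ b)) p := by
    intro p
    have u0 := haar_mul_ind k a H hk1 p.1
    have u1 := haar_mul_ind k b H hk1 p.2.1
    have u2 := haar_mul_ind k (a ^^^ b) H hk1 p.2.2
    have hHnn : 0 ≤ H := by rw [hHdef]; positivity
    have s0 := ind_seg_sum hHnn 2 a p.1
    have s1 := ind_seg_sum hHnn 2 b p.2.1
    have s2 := ind_seg_sum hHnn 2 (a ^^^ b) p.2.2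
    simp only [sum_range_succ, sum_range_zero, zero_add, Nat.add_zero] at s0 s1 s2
    rw [e0, e1, e2, e3]
    simp only [ind3, hdy]
    calc _ = triProd F0 F1 F2 p * ((haar k a p.1 * ind (seg (H * (2 : ℕ)) a) p.1)
          * (haar k b p.2.1 * ind (seg (H * (2 : ℕ)) b) p.2.1)
          * (haar k (a ^^^ b) p.2.2 * ind (seg (H * (2 : ℕ)) (a ^^^ b)) p.2.2)) := by ring
      _ = _ := by rw [u0, u1, u2, s0, s1, s2]; ring
  have I : ∀ x y z : ℕ, Integrable fun p => triProd F0 F1 F2 p *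
      ind3 (seg H x) (seg H y) (seg H z) p := fun x y z => integrable_ind3 hG _ _ _ _ _ _
  have I' : Integrable fun p => triProd F0 F1 F2 p *
      ind3 (seg (H * (2 : ℕ)) a) (seg (H * (2 : ℕ)) b) (seg (H * (2 : ℕ)) (a ^^^ b)) p :=
    integrable_ind3 hG _ _ _ _ _ _
  have J : ∀ N x y z, Integrable fun t => sampleTrace F0 F1 F2 ℓ N x y z t * cube ℓ t :=
    fun N x y z => integrable_ind3 (bdd_sampleTrace h0 h1 h2 ℓ N x y z) _ _ _ _ _ _
  have B : ∀ x y z, ∫ p, triProd F0 F1 F2 p * ind3 (seg H x) (seg H y) (seg H z) p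
      = ∫ t, sampleTrace F0 F1 F2 ℓ (2 ^ j) x y z t * cube ℓ t := fun x y z =>
    box_integral h0 h1 h2 hℓ.le (2 ^ j) x y z
  rw [hterm]
  have hl := int_comb (I (2 * a) (2 * b) ((2 * a) ^^^ (2 * b)))
    (I (2 * a) (2 * b + 1) ((2 * a) ^^^ (2 * b + 1)))
    (I (2 * a + 1) (2 * b) ((2 * a + 1) ^^^ (2 * b)))
    (I (2 * a + 1) (2 * b + 1) ((2 * a + 1) ^^^ (2 * b + 1))) I' 2 1
  simp only [one_mul] at hl
  simp only [hpt, hl, B]
  have hr := int_comb (J (2 ^ j) (2 * a) (2 * b) ((2 * a) ^^^ (2 * b)))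
    (J (2 ^ j) (2 * a) (2 * b + 1) ((2 * a) ^^^ (2 * b + 1)))
    (J (2 ^ j) (2 * a + 1) (2 * b) ((2 * a + 1) ^^^ (2 * b)))
    (J (2 ^ j) (2 * a + 1) (2 * b + 1) ((2 * a + 1) ^^^ (2 * b + 1)))
    (J (2 * 2 ^ j) a b (a ^^^ b)) (1 / 2 ^ j) (1 / (2 * 2 ^ j))
  rw [show (fun t => sampleNode F0 F1 F2 ℓ j a b t * cube ℓ t) = fun t =>
      1 / 2 ^ j * (sampleTrace F0 F1 F2 ℓ (2 ^ j) (2 * a) (2 * b) ((2 * a) ^^^ (2 * b)) t * cube ℓ t
        + sampleTrace F0 F1 F2 ℓ (2 ^ j) (2 * a) (2 * b + 1) ((2 * a) ^^^ (2 * b + 1)) t * cube ℓ t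
        + (sampleTrace F0 F1 F2 ℓ (2 ^ j) (2 * a + 1) (2 * b) ((2 * a + 1) ^^^ (2 * b)) t * cube ℓ t
          + sampleTrace F0 F1 F2 ℓ (2 ^ j) (2 * a + 1) (2 * b + 1)
              ((2 * a + 1) ^^^ (2 * b + 1)) t * cube ℓ t))
        - 1 / (2 * 2 ^ j) * (sampleTrace F0 F1 F2 ℓ (2 * 2 ^ j) a b (a ^^^ b) t * cube ℓ t)
      from funext fun t => by simp only [sampleNode]; ring, hr, hseg,
    box_integral h0 h1 h2 hℓ.le]
  have hkk : (2 : ℝ) ^ (-k) = (ℓ * (2 * 2 ^ j))⁻¹ := by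
    rw [zpow_neg, hk, hHdef]; push_cast; ring
  rw [hkk]
  field_simp

end Vale.Agent.P075

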