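import Mathlib
import Vale.Agent.P075.Continuous

/-!
# The uniform bound for the dyadic triangular form
-/

noncomputable section

open MeasureTheory Finset
open scoped BigOperators

namespace Vale.Agent.P075

/-- Scale difference for sampled data. -/
def scaleDiff (F0 F1 F2 : ℝ × ℝ → ℝ) (ℓ : ℝ) (L j : ℕ) (t : ℝ × ℝ × ℝ) : ℝ :=
  phiScale (sample F0 ℓ t.1 t.2.1) (sample F1 ℓ t.2.1 t.2.2) (sample F2 ℓ t.2.2 t.1) L j
    - phiScale (sample F0 ℓ t.1 t.2.1) (sample F1 ℓ t.2.1 t.2.2) (sample F2 ℓ t.2.2 t.1) L (j + 1)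

theorem scaleDiff_eq (F0 F1 F2 : ℝ × ℝ → ℝ) (ℓ : ℝ) {L j : ℕ} (hj : j < L) (t : ℝ × ℝ × ℝ) :
    scaleDiff F0 F1 F2 ℓ L j t = ∑ a ∈ range (2 ^ (L - (j + 1))),
      ∑ b ∈ range (2 ^ (L - (j + 1))), sampleNode F0 F1 F2 ℓ j a b t := by
  have hM : 2 ^ (L - j) = 2 * 2 ^ (L - (j + 1)) := by rw [← pow_succ']; congr 1; omega
  simp only [scaleDiff, phiScale, sampleNode, sampleTrace, pow_succ' (2 : ℝ) j, hM,
    sum_range_double, sum_add_distrib.symm, sum_div, ← sum_sub_distrib]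
  refine sum_congr rfl fun a _ => sum_congr rfl fun b _ => ?_
  rw [pow_succ' (2 : ℕ) j]

theorem term_eq_zero {F0 F1 F2 : ℝ × ℝ → ℝ} {R : ℝ}
    (hR : ∀ p : ℝ × ℝ, R ≤ p.1 ∨ R ≤ p.2 → F0 p = 0) (k : ℤ) {a b c : ℕ}
    (h : R ≤ (2 : ℝ) ^ k * a ∨ R ≤ (2 : ℝ) ^ k * b) : term F0 F1 F2 k a b c = 0 := by
  have : ∀ x0 ∈ dyInterval k a, ∫ x1 in dyInterval k b, ∫ x2 in dyInterval k c,
      F0 (x0, x1) * F1 (x1, x2) * F2 (x2, x0) * (haar k a x0 * haar k b x1 * haar k c x2) = 0 := by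
    intro x0 hx0
    refine setIntegral_eq_zero_of_forall_eq_zero fun x1 hx1 => ?_
    refine setIntegral_eq_zero_of_forall_eq_zero fun x2 _ => ?_
    rw [hR (x0, x1) (h.imp (fun h => h.trans hx0.1) fun h => h.trans hx1.1)]
    ring
  rw [term, setIntegral_eq_zero_of_forall_eq_zero this, mul_zero]

theorem scale_sum {F0 F1 F2 : ℝ × ℝ → ℝ} (h0 : Bdd F0) (h1 : Bdd F1) (h2 : Bdd F2)
    (k0 : ℤ) {L j : ℕ} (hj : j < L)
    (hR : ∀ p : ℝ × ℝ, (2 : ℝ) ^ k0 * 2 ^ L ≤ p.1 ∨ (2 : ℝ) ^ k0 * 2 ^ L ≤ p.2 → F0 p = 0) :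
    Summable (fun p : ℕ × ℕ => term F0 F1 F2 (k0 + (j + 1 : ℕ)) p.1 p.2 (p.1 ^^^ p.2)) ∧
    ∑' p : ℕ × ℕ, term F0 F1 F2 (k0 + (j + 1 : ℕ)) p.1 p.2 (p.1 ^^^ p.2)
      = ((2 : ℝ) ^ k0)⁻¹ *
        ∫ t, scaleDiff F0 F1 F2 ((2 : ℝ) ^ k0) L j t * cube ((2 : ℝ) ^ k0) t := by
  set M := 2 ^ (L - (j + 1)) with hM
  have hz : ∀ p ∉ range M ×ˢ range M,
      term F0 F1 F2 (k0 + (j + 1 : ℕ)) p.1 p.2 (p.1 ^^^ p.2) = 0 := by
    intro p hp
    refine term_eq_zero hR _ ?_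
    have hk : (2 : ℝ) ^ k0 * 2 ^ L = (2 : ℝ) ^ (k0 + ((j + 1 : ℕ) : ℤ)) * M := by
      rw [zpow_add₀ (by norm_num), zpow_natCast, hM, Nat.cast_pow, Nat.cast_ofNat, mul_assoc,
        ← pow_add]
      congr 2; omega
    rw [hk]
    simp only [mem_product, mem_range, not_and_or, not_lt] at hp
    rcases hp with h | h
    · left; gcongr
    · right; gcongr
  refine ⟨summable_of_ne_finset_zero hz, ?_⟩
  rw [tsum_eq_sum hz, sum_product]
  simp only [term_eq h0 h1 h2, ← mul_sum]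
  congr 1
  have J : ∀ a b, Integrable fun t =>
      sampleNode F0 F1 F2 ((2 : ℝ) ^ k0) j a b t * cube ((2 : ℝ) ^ k0) t :=
    fun a b => integrable_ind3 (bdd_sampleNode h0 h1 h2 _ j a b) _ _ _ _ _ _
  simp only [scaleDiff_eq F0 F1 F2 _ hj, sum_mul, ← hM]
  rw [integral_finsetSum _ fun a _ => integrable_finsetSum _ fun b _ => J a b]
  exact sum_congr rfl fun a _ => (integral_finsetSum _ fun b _ => J a b).symm

theorem integral_ind_seg {ℓ : ℝ} (hℓ : 0 ≤ ℓ) : ∫ x, ind (seg ℓ 0) x = ℓ := by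
  simp only [ind, seg]
  rw [integral_indicator measurableSet_Ico, setIntegral_const]
  simp [hℓ]

theorem fubini01 {K : ℝ × ℝ → ℝ} (hK : Bdd K) {ℓ : ℝ} (hℓ : 0 ≤ ℓ) :
    ∫ p : ℝ × ℝ × ℝ, K (p.1, p.2.1) * cube ℓ p
      = ℓ * ∫ q : ℝ × ℝ, K q * (ind (seg ℓ 0) q.1 * ind (seg ℓ 0) q.2) := by
  have i3 : Integrable (fun p : ℝ × ℝ × ℝ => K (p.1, p.2.1) * cube ℓ p) :=
    integrable_ind3 (H := fun p : ℝ × ℝ × ℝ => K (p.1, p.2.1)) (hK.comp (by fun_prop)) _ _ _ _ _ _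
  have i2 : Integrable (fun q : ℝ × ℝ => K q * (ind (seg ℓ 0) q.1 * ind (seg ℓ 0) q.2)) :=
    integrable_ind2 hK _ _ _ _
  simp only [Measure.volume_eq_prod] at i3 i2 ⊢
  rw [integral_prod _ i3, integral_prod _ i2, ← integral_const_mul]
  refine integral_congr_ae (Filter.Eventually.of_forall fun x0 => ?_)
  dsimp only
  have e : ∀ q : ℝ × ℝ, K (x0, q.1) * cube ℓ (x0, q)
      = (K (x0, q.1) * (ind (seg ℓ 0) x0 * ind (seg ℓ 0) q.1)) * ind (seg ℓ 0) q.2 := fun q => by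
    simp only [cube, ind3]; ring
  simp only [e]
  rw [integral_prod_mul (fun x => K (x0, x) * (ind (seg ℓ 0) x0 * ind (seg ℓ 0) x))
    (fun y => ind (seg ℓ 0) y), integral_ind_seg hℓ, mul_comm]

theorem fubini12 {K : ℝ × ℝ → ℝ} {ℓ : ℝ} (hℓ : 0 ≤ ℓ) :
    ∫ p : ℝ × ℝ × ℝ, K (p.2.1, p.2.2) * cube ℓ p
      = ℓ * ∫ q : ℝ × ℝ, K q * (ind (seg ℓ 0) q.1 * ind (seg ℓ 0) q.2) := by
  have e : ∀ p : ℝ × ℝ × ℝ, K (p.2.1, p.2.2) * cube ℓ p
      = ind (seg ℓ 0) p.1 *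
        (fun q : ℝ × ℝ => K q * (ind (seg ℓ 0) q.1 * ind (seg ℓ 0) q.2)) p.2 := fun p => by
    simp only [cube, ind3]; ring
  simp only [e]
  rw [Measure.volume_eq_prod ℝ (ℝ × ℝ)]
  rw [integral_prod_mul (fun x => ind (seg ℓ 0) x)
    (fun q : ℝ × ℝ => K q * (ind (seg ℓ 0) q.1 * ind (seg ℓ 0) q.2)), integral_ind_seg hℓ]

theorem fubini20 {K : ℝ × ℝ → ℝ} (hK : Bdd K) {ℓ : ℝ} (hℓ : 0 ≤ ℓ) :
    ∫ p : ℝ × ℝ × ℝ, K (p.2.2, p.1) * cube ℓ p
      = ℓ * ∫ q : ℝ × ℝ, K q * (ind (seg ℓ 0) q.1 * ind (seg ℓ 0) q.2) := by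
  have i3 : Integrable (fun p : ℝ × ℝ × ℝ => K (p.2.2, p.1) * cube ℓ p) :=
    integrable_ind3 (H := fun p : ℝ × ℝ × ℝ => K (p.2.2, p.1)) (hK.comp (by fun_prop)) _ _ _ _ _ _
  have i2 : Integrable (fun q : ℝ × ℝ => K q * (ind (seg ℓ 0) q.1 * ind (seg ℓ 0) q.2)) :=
    integrable_ind2 hK _ _ _ _
  simp only [Measure.volume_eq_prod] at i3 i2 ⊢
  rw [integral_prod _ i3, integral_prod_symm _ i2, ← integral_const_mul]
  refine integral_congr_ae (Filter.Eventually.of_forall fun x0 => ?_)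
  dsimp only
  have e : ∀ q : ℝ × ℝ, K (q.2, x0) * cube ℓ (x0, q)
      = ind (seg ℓ 0) q.1 * (K (q.2, x0) * (ind (seg ℓ 0) q.2 * ind (seg ℓ 0) x0)) := fun q => by
    simp only [cube, ind3]; ring
  simp only [e]
  rw [integral_prod_mul (fun y => ind (seg ℓ 0) y)
    (fun x => K (x, x0) * (ind (seg ℓ 0) x * ind (seg ℓ 0) x0)), integral_ind_seg hℓ]

/-- Integral over the quadrant. -/
def quadInt (G : ℝ × ℝ → ℝ) : ℝ := ∫ p in Set.Ici (0 : ℝ) ×ˢ Set.Ici (0 : ℝ), G p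

/-- Cube mass of samples as a function of two offsets. -/
def cubeK (F : ℝ × ℝ → ℝ) (ℓ : ℝ) (M : ℕ) (q : ℝ × ℝ) : ℝ := cubeSum (sample F ℓ q.1 q.2) M

theorem bdd_cubeK {F : ℝ × ℝ → ℝ} (hF : Bdd F) (ℓ : ℝ) (M : ℕ) : Bdd (cubeK F ℓ M) :=
  Bdd.sum (s := range M) (H := fun (a : ℕ) (q : ℝ × ℝ) => ∑ b ∈ range M, |sample F ℓ q.1 q.2 a b| ^ 3)
    fun a _ => Bdd.sum (H := fun (b : ℕ) (q : ℝ × ℝ) => |sample F ℓ q.1 q.2 a b| ^ 3)
      fun b _ =>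
        (hF.comp (f := fun q : ℝ × ℝ => (q.1 + ℓ * a, q.2 + ℓ * b)) (by fun_prop)).cube_abs

theorem mass2 {F : ℝ × ℝ → ℝ} (hF : Bdd F)
    (hint : IntegrableOn (fun p => |F p| ^ 3) (Set.Ici (0 : ℝ) ×ˢ Set.Ici (0 : ℝ)))
    {ℓ : ℝ} (hℓ : 0 ≤ ℓ) (M : ℕ) :
    ∫ q : ℝ × ℝ, cubeK F ℓ M q * (ind (seg ℓ 0) q.1 * ind (seg ℓ 0) q.2)
      ≤ quadInt (fun p => |F p| ^ 3) := by
  have hG := hF.cube_abs
  have : (volume : Measure (ℝ × ℝ)).IsAddLeftInvariant := by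
    rw [Measure.volume_eq_prod]; infer_instance
  have shift : ∀ a b : ℕ,
      ∫ q : ℝ × ℝ, |sample F ℓ q.1 q.2 a b| ^ 3 * (ind (seg ℓ 0) q.1 * ind (seg ℓ 0) q.2)
        = ∫ q : ℝ × ℝ, |F q| ^ 3 * (ind (seg ℓ a) q.1 * ind (seg ℓ b) q.2) := by
    intro a b
    rw [← integral_add_right_eq_self
      (fun q : ℝ × ℝ => |F q| ^ 3 * (ind (seg ℓ a) q.1 * ind (seg ℓ b) q.2)) (ℓ * a, ℓ * b)]
    simp only [Prod.fst_add, Prod.snd_add, ind_seg_shift]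
    rfl
  have il : ∀ a b : ℕ, Integrable fun q : ℝ × ℝ =>
      |sample F ℓ q.1 q.2 a b| ^ 3 * (ind (seg ℓ 0) q.1 * ind (seg ℓ 0) q.2) :=
    fun a b => integrable_ind2 (hF.comp (by fun_prop)).cube_abs _ _ _ _
  have ir : ∀ a b : ℕ, Integrable fun q : ℝ × ℝ =>
      |F q| ^ 3 * (ind (seg ℓ a) q.1 * ind (seg ℓ b) q.2) :=
    fun a b => integrable_ind2 hG _ _ _ _
  have e : ∫ q : ℝ × ℝ, cubeK F ℓ M q * (ind (seg ℓ 0) q.1 * ind (seg ℓ 0) q.2)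
      = ∫ q : ℝ × ℝ, |F q| ^ 3 * (ind (seg (ℓ * M) 0) q.1 * ind (seg (ℓ * M) 0) q.2) := by
    have hp : ∀ q : ℝ × ℝ, |F q| ^ 3 * (ind (seg (ℓ * M) 0) q.1 * ind (seg (ℓ * M) 0) q.2)
        = ∑ a ∈ range M, ∑ b ∈ range M,
          |F q| ^ 3 * (ind (seg ℓ a) q.1 * ind (seg ℓ b) q.2) := fun q => by
      simp only [ind_seg_sum hℓ, mul_zero, zero_add]
      rw [sum_mul_sum, mul_sum]
      exact sum_congr rfl fun a _ => by rw [mul_sum]
    simp only [cubeK, cubeSum, sum_mul, hp]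
    rw [integral_finsetSum _ fun a _ => integrable_finsetSum _ fun b _ => il a b,
      integral_finsetSum _ fun a _ => integrable_finsetSum _ fun b _ => ir _ _]
    refine sum_congr rfl fun a _ => ?_
    rw [integral_finsetSum _ fun b _ => il a b, integral_finsetSum _ fun b _ => ir _ _]
    exact sum_congr rfl fun b _ => shift a b
  rw [e, quadInt, ← integral_indicator (measurableSet_Ici.prod measurableSet_Ici)]
  refine integral_mono (integrable_ind2 hG _ _ _ _)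
    ((integrable_indicator_iff (measurableSet_Ici.prod measurableSet_Ici)).2 hint) fun q => ?_
  have hle : 0 ≤ |F q| ^ 3 := by positivity
  simp only [ind, seg, Set.indicator_apply, Set.mem_Ico, Set.mem_prod, Set.mem_Ici, Nat.cast_zero,
    mul_zero]
  split_ifs <;> simp_all

theorem bdd_integrableOn {F : ℝ × ℝ → ℝ} (hF : Bdd F) (hs : HasCompactSupport F) (s : Set (ℝ × ℝ)) :
    IntegrableOn (fun p => |F p| ^ 3) s := by
  obtain ⟨hm, B, hB⟩ := hF.cube_abs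
  have h : IntegrableOn (fun p => |F p| ^ 3) (tsupport F) :=
    IntegrableOn.of_bound hs.measure_lt_top hm.aestronglyMeasurable B
      (Filter.Eventually.of_forall fun x => by simpa using hB x)
  refine (Integrable.integrableOn ?_)
  refine (integrableOn_iff_integrable_of_support_subset ?_).1 h
  intro p hp
  exact subset_tsupport F fun h0 => hp (by simp [h0])

theorem exists_scales (S : Finset ℤ) (R : ℝ) :
    ∃ (k0 : ℤ) (L : ℕ), R < (2 : ℝ) ^ k0 * 2 ^ L ∧ ∀ k ∈ S, k0 < k ∧ k ≤ k0 + L := by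
  set T : ℤ := ∑ k ∈ S, |k| with hT
  have hk : ∀ k ∈ S, |k| ≤ T := fun k hk =>
    single_le_sum (f := fun k : ℤ => |k|) (fun i _ => abs_nonneg i) hk
  obtain ⟨N, hN⟩ := pow_unbounded_of_one_lt (R / (2 : ℝ) ^ (-T - 1)) one_lt_two
  refine ⟨-T - 1, N + (2 * T + 1).toNat, ?_, fun k hks => ?_⟩
  · rw [div_lt_iff₀ (zpow_pos (by norm_num) _)] at hN
    refine hN.trans_le ?_
    rw [mul_comm]
    gcongr <;> norm_num
  · have h1 := hk k hks
    have h2 : 0 ≤ T := sum_nonneg fun i _ => abs_nonneg i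
    rw [abs_le] at h1
    push_cast
    omega

theorem unnormalised_bound (S : Finset ℤ) (ε : ℤ → ℝ) (hε : ∀ k ∈ S, |ε k| ≤ 1)
    {F0 F1 F2 : ℝ × ℝ → ℝ} (h0 : Bdd F0) (h1 : Bdd F1) (h2 : Bdd F2)
    (s0 : HasCompactSupport F0) (s1 : HasCompactSupport F1) (s2 : HasCompactSupport F2) :
    (∀ k ∈ S, Summable fun p : ℕ × ℕ => term F0 F1 F2 k p.1 p.2 (p.1 ^^^ p.2)) ∧
    |∑ k ∈ S, ε k * ∑' p : ℕ × ℕ, term F0 F1 F2 k p.1 p.2 (p.1 ^^^ p.2)|
      ≤ 24 * (quadInt (fun p => |F0 p| ^ 3) + quadInt (fun p => |F1 p| ^ 3)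
          + quadInt (fun p => |F2 p| ^ 3)) := by
  obtain ⟨C0, hC0⟩ := isBounded_iff_forall_norm_le.1 (IsCompact.isBounded s0)
  obtain ⟨k0, L, hL, hk⟩ := exists_scales S C0
  have hR : ∀ p : ℝ × ℝ, (2 : ℝ) ^ k0 * 2 ^ L ≤ p.1 ∨ (2 : ℝ) ^ k0 * 2 ^ L ≤ p.2 → F0 p = 0 := by
    intro p hp
    by_contra hne
    have h := hC0 p (subset_tsupport F0 hne)
    rw [Prod.norm_def, max_le_iff, Real.norm_eq_abs, Real.norm_eq_abs] at h
    have := le_abs_self p.1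
    have := le_abs_self p.2
    rcases hp with hp | hp <;> linarith
  set ℓ : ℝ := (2 : ℝ) ^ k0 with hℓdef
  have hℓ : 0 < ℓ := zpow_pos (by norm_num) _
  set J : ℤ → ℕ := fun k => (k - k0 - 1).toNat with hJdef
  have hJ : ∀ k ∈ S, J k < L ∧ k = k0 + (J k + 1 : ℕ) := fun k hks => by
    have := hk k hks
    simp only [hJdef]
    omega
  have hS : ∀ k ∈ S, Summable (fun p : ℕ × ℕ => term F0 F1 F2 k p.1 p.2 (p.1 ^^^ p.2)) ∧
      ∑' p : ℕ × ℕ, term F0 F1 F2 k p.1 p.2 (p.1 ^^^ p.2)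
        = ℓ⁻¹ * ∫ t, scaleDiff F0 F1 F2 ℓ L (J k) t * cube ℓ t := fun k hks => by
    have h := scale_sum h0 h1 h2 k0 (hJ k hks).1 hR
    rwa [← (hJ k hks).2] at h
  refine ⟨fun k hks => (hS k hks).1, ?_⟩
  set K0 : ℝ × ℝ → ℝ := cubeK F0 ℓ (2 ^ L) with hK0
  set K1 : ℝ × ℝ → ℝ := cubeK F1 ℓ (2 ^ L) with hK1
  set K2 : ℝ × ℝ → ℝ := cubeK F2 ℓ (2 ^ L) with hK2
  have iD : ∀ k ∈ S, Integrable fun t => scaleDiff F0 F1 F2 ℓ L (J k) t * cube ℓ t := by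
    intro k hks
    refine integrable_ind3 ?_ _ _ _ _ _ _
    rw [show scaleDiff F0 F1 F2 ℓ L (J k) = _ from funext (scaleDiff_eq F0 F1 F2 ℓ (hJ k hks).1)]
    exact Bdd.sum fun a _ => Bdd.sum fun b _ => bdd_sampleNode h0 h1 h2 ℓ _ a b
  have p0 : Integrable fun t : ℝ × ℝ × ℝ => K0 (t.1, t.2.1) * cube ℓ t :=
    integrable_ind3 (H := fun t : ℝ × ℝ × ℝ => K0 (t.1, t.2.1))
      ((bdd_cubeK h0 ℓ _).comp (by fun_prop)) _ _ _ _ _ _
  have p1 : Integrable fun t : ℝ × ℝ × ℝ => K1 (t.2.1, t.2.2) * cube ℓ t :=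
    integrable_ind3 (H := fun t : ℝ × ℝ × ℝ => K1 (t.2.1, t.2.2))
      ((bdd_cubeK h1 ℓ _).comp (by fun_prop)) _ _ _ _ _ _
  have p2 : Integrable fun t : ℝ × ℝ × ℝ => K2 (t.2.2, t.1) * cube ℓ t :=
    integrable_ind3 (H := fun t : ℝ × ℝ × ℝ => K2 (t.2.2, t.1))
      ((bdd_cubeK h2 ℓ _).comp (by fun_prop)) _ _ _ _ _ _
  have q01 : Integrable fun t : ℝ × ℝ × ℝ =>
      K0 (t.1, t.2.1) * cube ℓ t + K1 (t.2.1, t.2.2) * cube ℓ t := p0.add p1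
  have q : Integrable fun t : ℝ × ℝ × ℝ =>
      24 * (K0 (t.1, t.2.1) * cube ℓ t + K1 (t.2.1, t.2.2) * cube ℓ t
        + K2 (t.2.2, t.1) * cube ℓ t) := (q01.add p2).const_mul 24
  have hpt : ∀ t, |∑ k ∈ S, ε k * (scaleDiff F0 F1 F2 ℓ L (J k) t * cube ℓ t)|
      ≤ 24 * (K0 (t.1, t.2.1) * cube ℓ t + K1 (t.2.1, t.2.2) * cube ℓ t
        + K2 (t.2.2, t.1) * cube ℓ t) := by
    intro t
    have hc : 0 ≤ cube ℓ t := ind3_nonneg _ _ _ _
    calc |∑ k ∈ S, ε k * (scaleDiff F0 F1 F2 ℓ L (J k) t * cube ℓ t)|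
        ≤ ∑ k ∈ S, |scaleDiff F0 F1 F2 ℓ L (J k) t| * cube ℓ t := by
          refine (abs_sum_le_sum_abs _ _).trans (sum_le_sum fun k hks => ?_)
          rw [abs_mul, abs_mul, abs_of_nonneg hc]
          exact mul_le_of_le_one_left (mul_nonneg (abs_nonneg _) hc) (hε k hks)
      _ = ∑ j ∈ S.image J, |scaleDiff F0 F1 F2 ℓ L j t| * cube ℓ t := by
          rw [sum_image fun x hx y hy e => ?_]
          rw [(hJ x hx).2, (hJ y hy).2, e]
      _ ≤ ∑ j ∈ range L, |scaleDiff F0 F1 F2 ℓ L j t| * cube ℓ t := by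
          refine sum_le_sum_of_subset_of_nonneg ?_ fun j _ _ => mul_nonneg (abs_nonneg _) hc
          intro j hj
          obtain ⟨k, hks, rfl⟩ := mem_image.1 hj
          exact mem_range.2 (hJ k hks).1
      _ ≤ 24 * (K0 (t.1, t.2.1) + K1 (t.2.1, t.2.2) + K2 (t.2.2, t.1)) * cube ℓ t := by
          rw [← sum_mul]
          exact mul_le_mul_of_nonneg_right (disc_main _ _ _ L) hc
      _ = _ := by ring
  have hsum : ∑ k ∈ S, ε k * ∑' p : ℕ × ℕ, term F0 F1 F2 k p.1 p.2 (p.1 ^^^ p.2)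
      = ℓ⁻¹ * ∫ t, ∑ k ∈ S, ε k * (scaleDiff F0 F1 F2 ℓ L (J k) t * cube ℓ t) := by
    rw [integral_finsetSum _ fun k hks => (iD k hks).const_mul (ε k), mul_sum]
    refine sum_congr rfl fun k hks => ?_
    rw [(hS k hks).2, integral_const_mul]
    ring
  have hint := abs_integral_le_integral_abs
    (f := fun t => ∑ k ∈ S, ε k * (scaleDiff F0 F1 F2 ℓ L (J k) t * cube ℓ t)) (μ := volume)
  have hmono := integral_mono
    (integrable_finsetSum _ fun k hks => (iD k hks).const_mul (ε k)).abs q hpt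
  rw [integral_const_mul, integral_add q01 p2, integral_add p0 p1,
    fubini01 (K := K0) (bdd_cubeK h0 ℓ _) hℓ.le, fubini12 (K := K1) hℓ.le,
    fubini20 (K := K2) (bdd_cubeK h2 ℓ _) hℓ.le] at hmono
  have m0 := mass2 h0 (bdd_integrableOn h0 s0 _) hℓ.le (2 ^ L)
  have m1 := mass2 h1 (bdd_integrableOn h1 s1 _) hℓ.le (2 ^ L)
  have m2 := mass2 h2 (bdd_integrableOn h2 s2 _) hℓ.le (2 ^ L)
  rw [hsum, abs_mul, abs_of_pos (inv_pos.2 hℓ), inv_mul_le_iff₀ hℓ]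
  refine (hint.trans hmono).trans ?_
  rw [← mul_add, ← mul_add, mul_left_comm]
  gcongr

theorem term_scale (F0 F1 F2 : ℝ × ℝ → ℝ) (u v w : ℝ) (k : ℤ) (a b c : ℕ) :
    term (fun p => u * F0 p) (fun p => v * F1 p) (fun p => w * F2 p) k a b c
      = u * v * w * term F0 F1 F2 k a b c := by
  simp only [term]
  rw [mul_left_comm (u * v * w)]
  congr 1
  rw [← integral_const_mul]
  simp only [← integral_const_mul]
  congr 1
  funext x0
  congr 1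
  funext x1
  congr 1
  funext x2
  ring

theorem norm3_nonneg (F : ℝ × ℝ → ℝ) : 0 ≤ norm3 F :=
  Real.rpow_nonneg (integral_nonneg fun p => by positivity) _

theorem norm3_cube (F : ℝ × ℝ → ℝ) : norm3 F ^ 3 = quadInt (fun p => |F p| ^ 3) := by
  have h : 0 ≤ quadInt (fun p => |F p| ^ 3) := integral_nonneg fun p => by positivity
  change (quadInt (fun p => |F p| ^ 3) ^ ((1 : ℝ) / 3)) ^ 3 = _
  rw [← Real.rpow_natCast, ← Real.rpow_mul h]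
  norm_num

theorem dyadic_bound (S : Finset ℤ) (ε : ℤ → ℝ) (hε : ∀ k ∈ S, |ε k| ≤ 1)
    {F0 F1 F2 : ℝ × ℝ → ℝ} (h0 : Bdd F0) (h1 : Bdd F1) (h2 : Bdd F2)
    (s0 : HasCompactSupport F0) (s1 : HasCompactSupport F1) (s2 : HasCompactSupport F2) :
    |∑ k ∈ S, ε k * ∑' p : ℕ × ℕ, term F0 F1 F2 k p.1 p.2 (p.1 ^^^ p.2)|
      ≤ 72 * (norm3 F0 * norm3 F1 * norm3 F2) := by
  set X := ∑ k ∈ S, ε k * ∑' p : ℕ × ℕ, term F0 F1 F2 k p.1 p.2 (p.1 ^^^ p.2) with hX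
  have key : ∀ δ : ℝ, 0 < δ →
      |X| ≤ 72 * ((norm3 F0 + δ) * (norm3 F1 + δ) * (norm3 F2 + δ)) := by
    intro δ hδ
    have hp : ∀ F, 0 < norm3 F + δ := fun F => by linarith [norm3_nonneg F]
    set u := (norm3 F0 + δ)⁻¹
    set v := (norm3 F1 + δ)⁻¹
    set w := (norm3 F2 + δ)⁻¹
    have hu : 0 < u := inv_pos.2 (hp F0)
    have hv : 0 < v := inv_pos.2 (hp F1)
    have hw : 0 < w := inv_pos.2 (hp F2)
    have h := (unnormalised_bound S ε hε ((Bdd.const u).mul h0) ((Bdd.const v).mul h1)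
      ((Bdd.const w).mul h2) (s0.mul_left (f := fun _ => u)) (s1.mul_left (f := fun _ => v))
      (s2.mul_left (f := fun _ => w))).2
    have hq : ∀ F : ℝ × ℝ → ℝ,
        quadInt (fun p => |(norm3 F + δ)⁻¹ * F p| ^ 3) ≤ 1 := by
      intro F
      have e : quadInt (fun p => |(norm3 F + δ)⁻¹ * F p| ^ 3)
          = ((norm3 F + δ)⁻¹) ^ 3 * norm3 F ^ 3 := by
        rw [norm3_cube]
        simp only [quadInt, abs_mul, mul_pow, abs_of_pos (inv_pos.2 (hp F))]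
        exact integral_const_mul _ _
      rw [e, ← mul_pow]
      refine pow_le_one₀ (mul_nonneg (inv_pos.2 (hp F)).le (norm3_nonneg F)) ?_
      rw [inv_mul_le_one₀ (hp F)]
      linarith
    have e : ∑ k ∈ S, ε k * ∑' p : ℕ × ℕ,
        term (fun q => u * F0 q) (fun q => v * F1 q) (fun q => w * F2 q) k p.1 p.2 (p.1 ^^^ p.2)
          = u * v * w * X := by
      rw [hX, mul_sum]
      refine sum_congr rfl fun k _ => ?_
      simp only [term_scale, tsum_mul_left]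
      ring
    rw [e, abs_mul, abs_of_pos (by positivity : 0 < u * v * w)] at h
    have h' : u * v * w * |X| ≤ 72 := by
      linarith [hq F0, hq F1, hq F2]
    have hpos : 0 < (norm3 F0 + δ) * (norm3 F1 + δ) * (norm3 F2 + δ) :=
      mul_pos (mul_pos (hp F0) (hp F1)) (hp F2)
    calc |X| = (norm3 F0 + δ) * (norm3 F1 + δ) * (norm3 F2 + δ) * (u * v * w * |X|) := by
          have a0 := mul_inv_cancel₀ (hp F0).ne'
          have a1 := mul_inv_cancel₀ (hp F1).ne'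
          have a2 := mul_inv_cancel₀ (hp F2).ne'
          calc |X| = ((norm3 F0 + δ) * u) * ((norm3 F1 + δ) * v) * ((norm3 F2 + δ) * w) * |X| := by
                rw [a0, a1, a2]; ring
            _ = _ := by ring
      _ ≤ (norm3 F0 + δ) * (norm3 F1 + δ) * (norm3 F2 + δ) * 72 :=
          mul_le_mul_of_nonneg_left h' hpos.le
      _ = _ := by ring
  have hlim : Filter.Tendsto (fun δ : ℝ => 72 * ((norm3 F0 + δ) * (norm3 F1 + δ) * (norm3 F2 + δ)))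
      (nhdsWithin 0 (Set.Ioi 0)) (nhds (72 * (norm3 F0 * norm3 F1 * norm3 F2))) := by
    refine tendsto_nhdsWithin_of_tendsto_nhds ?_
    have hc : Continuous fun δ : ℝ =>
        72 * ((norm3 F0 + δ) * (norm3 F1 + δ) * (norm3 F2 + δ)) := by fun_prop
    simpa using hc.tendsto 0
  exact ge_of_tendsto hlim (Filter.eventually_of_mem self_mem_nhdsWithin key)

end Vale.Agent.P075

end
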